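import Crest.Agent.N233.Ae.Q

/-!
# Row 233 (helper61): more rules for `Q` and `Nq`: enlarging walls, filling, pulling back
-/

set_option autoImplicit false
open Set unitInterval Topology Filter

noncomputable section

namespace Crest.Agent.N233.Ae

variable {Z Y : Type} [TopologicalSpace Z] [TopologicalSpace Y]

/-- `A` deforms in itself into `B` -/
def Df (A B : Set Z) : Prop :=
  ∃ d : Z × I → Z, ContinuousOn d (A ×ˢ univ) ∧ (∀ x ∈ A, ∀ t, d (x, t) ∈ A) ∧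
    (∀ x ∈ A, d (x, 0) = x) ∧ ∀ x ∈ A, d (x, 1) ∈ B

theorem Df.trans {A B C : Set Z} (h : Df A B) (s : B ⊆ A) (h' : Df B C) : Df A C := by
  obtain ⟨d, a, b, c, e⟩ := h
  obtain ⟨d', a', b', c', e'⟩ := h'
  have c1 : ContinuousOn (fun q : Z × I => d (q.1, 1)) (A ×ˢ univ) :=
    a.comp (by fun_prop) fun _ hq => ⟨hq.1, trivial⟩
  refine ⟨cat d fun q => d' (d (q.1, 1), q.2), cat_cont a (a'.comp (c1.prodMk continuousOn_snd)
    fun q hq => ⟨e _ hq.1, trivial⟩) fun z hz => (c' _ (e z hz)).symm, fun x hx t => ?_,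
    fun x hx => (cat_zero ..).trans (c x hx), fun x hx => (cat_one d _ x).symm ▸ e' _ (e x hx)⟩
  exact cat_ind (P := fun a _ => a ∈ A) (z' := x) (b x hx) (fun t => s (b' _ (e x hx) t)) t

theorem Df.mono {A B C : Set Z} (h : Df A B) (s : B ⊆ C) : Df A C :=
  let ⟨d, a, b, c, e⟩ := h
  ⟨d, a, b, c, fun x hx => s (e x hx)⟩

theorem Df.nq {A B C : Set Z} {R : Z → Z → Prop} (h : Df B C) (s : B ⊆ A) (q : Nq Y A R C) :
    Nq Y A R B :=
  let ⟨_, a, b, c, e⟩ := h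
  q.deform s a (fun x hx t => s (b x hx t)) (fun x hx => Or.inl (c x hx)) e

theorem Df.q {A B : Set Z} (h : Df A B) (s : B ⊆ A) (q : Q Y B fun _ _ => False) :
    Q Y A fun _ _ => False :=
  let ⟨_, a, b, c, e⟩ := h
  q.deform s a b (fun x hx => Or.inl (c x hx)) e fun _ _ _ _ k => k.elim

theorem df_star {V : Type} [NormedAddCommGroup V] [NormedSpace ℝ V] {A : Set V} {x₀ : V}
    (h : StarConvex ℝ x₀ A) : Df A {x₀} :=
  ⟨fun q => (q.2 : ℝ) • x₀ + (1 - (q.2 : ℝ)) • q.1, by fun_prop,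
    fun x hx t => h hx t.2.1 (sub_nonneg.2 t.2.2) (by ring), fun x _ => by simp, fun x _ => by simp⟩

theorem q_pt (x₀ : Z) (R : Z → Z → Prop) : Q Y {x₀} R := q_of_rel rfl fun _ hx => Or.inl hx

variable [T2Space Z]

/-- walls may be enlarged by sets that deform into them -/
theorem Q.enlarge (h : LNE Y) {A : Set Z} (hA : IsCompact A) {ι : Type} {D D' : ι → Set Z}
    {J : Set ι} (hJ : J.Finite) (cD : ∀ i ∈ J, IsClosed (D i))
    (dD : ∀ i ∈ J, ∀ j ∈ J, ∀ x ∈ A, x ∈ D i → x ∈ D j → i = j) (s : ∀ i ∈ J, A ∩ D' i ⊆ D i)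
    (d : ∀ i ∈ J, Df (A ∩ D i) (D' i)) (q : Q Y A (Rel D' J)) : Q Y A (Rel D J) := by
  classical
  intro g cg rg
  obtain ⟨H, y, a, b, c, k⟩ := q g cg fun x p x' p' ⟨i, hi, u, u'⟩ =>
    rg x p x' p' ⟨i, hi, s i hi ⟨p, u⟩, s i hi ⟨p', u'⟩⟩
  choose r r1 r2 r3 r4 using d
  set Φ : (Z × I) × I → Y := fun w => if k : ∃ i ∈ J, w.1.1 ∈ A ∩ D i then
    H (r k.choose k.choose_spec.1 (w.1.1, w.2), w.1.2) else H w.1 with hΦ
  have e1 : ∀ i (hi : i ∈ J) (w : (Z × I) × I), w.1.1 ∈ A ∩ D i →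
      Φ w = H (r i hi (w.1.1, w.2), w.1.2) := fun i hi w hw => by
    have k : ∃ i ∈ J, w.1.1 ∈ A ∩ D i := ⟨i, hi, hw⟩
    simp only [hΦ, dif_pos k]
    congr 3
    exact dD _ k.choose_spec.1 i hi _ hw.1 k.choose_spec.2.2 hw.2
  have e2 : ∀ w : (Z × I) × I, w.1.1 ∈ A → (w.1.2 = 0 ∨ w.1.2 = 1) → Φ w = H w.1 :=
    fun ⟨⟨z, t⟩, u⟩ hz ht => by
      by_cases k : ∃ i ∈ J, z ∈ A ∩ D i
      · obtain ⟨i, hi, k⟩ := k
        have m := r2 i hi z k u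
        rw [e1 i hi _ k]
        rcases ht with rfl | rfl
        · exact ((b _ m.1).trans (rg _ m.1 z hz ⟨i, hi, m.2, k.2⟩)).trans (b z hz).symm
        · exact (c _ m.1).trans (c z hz).symm
      · exact dif_neg k
  have := hJ.to_subtype
  have cl : ∀ i : J, IsClosed {w : (Z × I) × I | w.1.1 ∈ A ∩ D i} := fun i =>
    (hA.isClosed.inter (cD i i.2)).preimage (by fun_prop)
  have k0 : IsClosed {w : Z × I | w.2 = 0 ∨ w.2 = 1} :=
    (isClosed_eq continuous_snd continuous_const).union (isClosed_eq continuous_snd continuous_const)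
  have k1 : IsClosed {w : Z × I | w.1 ∈ ⋃ i ∈ J, D i} :=
    (hJ.isClosed_biUnion cD).preimage continuous_fst
  obtain ⟨G, p, q, u⟩ := h.hep' (hA.prod isCompact_univ) (k0.union k1) a (H := Φ)
    (Ae.glue (k0.preimage continuous_fst) (k1.preimage continuous_fst) (fun w hw => hw.1.2)
      ((a.comp continuousOn_fst fun w hw => hw.1.1.1).congr fun w hw => e2 w hw.1.1.1.1 hw.2)
      (((locallyFinite_of_finite _).continuousOn_iUnion cl fun i =>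
        (a.comp (f := fun w : (Z × I) × I => (r i i.2 (w.1.1, w.2), w.1.2))
          (((r1 i i.2).comp (by fun_prop) fun w hw => ⟨hw, trivial⟩).prodMk (by fun_prop))
          fun w hw => ⟨(r2 i i.2 _ hw _).1, trivial⟩).congr fun w hw => e1 i i.2 w hw).mono
        fun w hw => by
          obtain ⟨i, hi, k⟩ := mem_iUnion₂.1 hw.2
          exact mem_iUnion.2 ⟨⟨i, hi⟩, hw.1.1.1.1, k⟩))
    fun w hw => hw.2.elim (e2 (w, 0) hw.1.1) fun k => by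
      obtain ⟨i, hi, k⟩ := mem_iUnion₂.1 k
      rw [e1 i hi (w, 0) ⟨hw.1.1, k⟩, r3 i hi _ ⟨hw.1.1, k⟩]
  refine ⟨fun w => G (w, 1), y, p.comp (by fun_prop) fun w hw => ⟨hw, trivial⟩, fun z hz => ?_,
    fun z hz => ?_, fun t x p x' p' ⟨i, hi, v, v'⟩ => ?_⟩
  · exact (u (z, 0) ⟨⟨hz, trivial⟩, Or.inl (Or.inl rfl)⟩ 1).trans
      ((e2 ((z, 0), 1) hz (Or.inl rfl)).trans (b z hz))
  · exact (u (z, 1) ⟨⟨hz, trivial⟩, Or.inl (Or.inr rfl)⟩ 1).trans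
      ((e2 ((z, 1), 1) hz (Or.inr rfl)).trans (c z hz))
  · show G ((x, t), 1) = G ((x', t), 1)
    rw [u (x, t) ⟨⟨p, trivial⟩, Or.inr (mem_iUnion₂.2 ⟨i, hi, v⟩)⟩,
      u (x', t) ⟨⟨p', trivial⟩, Or.inr (mem_iUnion₂.2 ⟨i, hi, v'⟩)⟩, e1 i hi _ ⟨p, v⟩,
      e1 i hi _ ⟨p', v'⟩]
    exact k t _ (r2 i hi x ⟨p, v⟩ 1).1 _ (r2 i hi x' ⟨p', v'⟩ 1).1
      ⟨i, hi, r4 i hi x ⟨p, v⟩, r4 i hi x' ⟨p', v'⟩⟩

/-- disjoint contractible subsets of a contractible set -/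
theorem q_contr (h : LNE Y) {A : Set Z} (hA : IsCompact A) {ι : Type} {D : ι → Set Z}
    {J : Set ι} (hJ : J.Finite) (cD : ∀ i ∈ J, IsClosed (D i))
    (dD : ∀ i ∈ J, ∀ j ∈ J, ∀ x ∈ A, x ∈ D i → x ∈ D j → i = j) (b : ι → Z)
    (hb : ∀ i ∈ J, b i ∈ D i) (d : ∀ i ∈ J, Df (A ∩ D i) {b i}) (q : Q Y A fun _ _ => False) :
    Q Y A (Rel D J) := by
  refine Q.enlarge h hA hJ cD dD (D' := fun i => {b i}) (fun i hi x hx => hx.2 ▸ hb i hi) d ?_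
  intro g cg _
  obtain ⟨H, y, a, b, c, -⟩ := q g cg fun _ _ _ _ k => k.elim
  exact ⟨H, y, a, b, c, fun t x _ x' _ ⟨i, _, u, u'⟩ => by rw [show x = x' from u.trans u'.symm]⟩

omit [T2Space Z] in
/-- filling the walls -/
theorem Q.fill {A A' : Set Z} {ι : Type} {D N : ι → Set Z} {J : Set ι} (q : Q Y A' (Rel N J))
    (hJ : J.Finite) (cA : IsClosed A) (cN : ∀ i ∈ J, IsClosed (N i)) (s : A ⊆ A')
    (cov : A' ⊆ A ∪ ⋃ i ∈ J, N i)
    (dN : ∀ i ∈ J, ∀ j ∈ J, ∀ x, x ∈ N i → x ∈ N j → i = j)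
    (e : ∀ i ∈ J, ∀ x ∈ A, x ∈ N i ↔ x ∈ D i) (b : ι → Z) (hb : ∀ i ∈ J, b i ∈ A ∩ D i) :
    Q Y A (Rel D J) := by
  classical
  intro g cg rg
  set g' : Z → Y := fun x => if k : ∃ i ∈ J, x ∈ N i then g (b k.choose) else g x with hg'
  have e1 : ∀ i ∈ J, ∀ x ∈ N i, g' x = g (b i) := fun i hi x hx => by
    have k : ∃ i ∈ J, x ∈ N i := ⟨i, hi, hx⟩
    simp only [hg', dif_pos k]
    rw [dN _ k.choose_spec.1 i hi x k.choose_spec.2 hx]
  have e2 : ∀ x ∈ A, g' x = g x := fun x hx => by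
    by_cases k : ∃ i ∈ J, x ∈ N i
    · obtain ⟨i, hi, k⟩ := k
      rw [e1 i hi x k]
      exact rg _ (hb i hi).1 x hx ⟨i, hi, (hb i hi).2, (e i hi x hx).1 k⟩
    · exact dif_neg k
  have := hJ.to_subtype
  have cg' : ContinuousOn g' (⋃ i ∈ J, N i) := by
    rw [biUnion_eq_iUnion]
    exact (locallyFinite_of_finite _).continuousOn_iUnion (fun i => cN i i.2)
      fun i => continuousOn_const.congr (e1 i i.2)
  obtain ⟨H, y, a, b, c, k⟩ := q g' (((cg.congr e2).union_of_isClosed cg' cA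
    (hJ.isClosed_biUnion cN)).mono cov) fun x _ x' _ ⟨i, hi, u, u'⟩ =>
      (e1 i hi x u).trans (e1 i hi x' u').symm
  exact ⟨H, y, a.mono (prod_mono s Subset.rfl), fun z hz => (b z (s hz)).trans (e2 z hz),
    fun z hz => c z (s hz), fun t x p x' p' ⟨i, hi, u, u'⟩ =>
      k t x (s p) x' (s p') ⟨i, hi, (e i hi x p).2 u, (e i hi x' p').2 u'⟩⟩

section Tr
variable {Z₀ : Type} [TopologicalSpace Z₀] {A₀ B₀ : Set Z₀} {R₀ : Z₀ → Z₀ → Prop}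
  {R : Z → Z → Prop} {φ : Z₀ → Z}

theorem Q.comap (h : Q Y (φ '' A₀) R) (hA : IsCompact A₀) (c : ContinuousOn φ A₀) (i : InjOn φ A₀)
    (hR : ∀ x ∈ A₀, ∀ x' ∈ A₀, R₀ x x' ↔ R (φ x) (φ x')) (x₀ : Z₀) : Q Y A₀ R₀ := by
  intro g cg rg
  obtain ⟨ψ, cψ, e⟩ := exists_inv hA c i x₀
  obtain ⟨H, y, a, b, d, k⟩ := h (fun z => g (ψ z))
    (cg.comp cψ (by rintro _ ⟨x, hx, rfl⟩; rw [e x hx]; exact hx)) (by
      rintro _ ⟨x, hx, rfl⟩ _ ⟨x', hx', rfl⟩ s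
      simp only [e x hx, e x' hx']
      exact rg x hx x' hx' ((hR x hx x' hx').2 s))
  exact ⟨fun q => H (φ q.1, q.2), y, a.comp ((c.comp continuousOn_fst fun _ k => k.1).prodMk
    continuousOn_snd) fun q hq => ⟨mem_image_of_mem _ hq.1, trivial⟩,
    fun z hz => (b _ (mem_image_of_mem _ hz)).trans (congrArg g (e z hz)),
    fun z hz => d _ (mem_image_of_mem _ hz), fun t x p x' p' s =>
      k t _ (mem_image_of_mem _ p) _ (mem_image_of_mem _ p') ((hR x p x' p').1 s)⟩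

theorem Nq.comap {B : Set Z} (h : Nq Y (φ '' A₀) R B) (hA : IsCompact A₀) (hB : B₀ ⊆ A₀)
    (m : MapsTo φ B₀ B) (c : ContinuousOn φ A₀) (i : InjOn φ A₀)
    (hR : ∀ x ∈ A₀, ∀ x' ∈ A₀, R (φ x) (φ x') → R₀ x x') (x₀ : Z₀) : Nq Y A₀ R₀ B₀ := by
  intro g cg rg
  obtain ⟨ψ, cψ, e⟩ := exists_inv hA c i x₀
  refine ((h (fun z => g (ψ z)) (cg.comp cψ (by rintro _ ⟨x, hx, rfl⟩; rw [e x hx]; exact hx)) (by
      rintro _ ⟨x, hx, rfl⟩ _ ⟨x', hx', rfl⟩ s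
      simp only [e x hx, e x' hx']
      exact rg x hx x' hx' (hR x hx x' hx' s))).comp (c.mono hB) m).congr fun x hx => ?_
  simp only [e x (hB hx)]

end Tr

end Crest.Agent.N233.Ae

end
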