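import Crest.Agent.N233.Ae.Col
import Crest.Agent.N233.Ae.Q2
import Crest.Agent.N233.Pc.Gl
import Crest.Agent.N233.Pc.Ch

/-!
# Row 233 (helper61): the glued space `W.Gl g` has null-homotopic compact sets
-/

set_option autoImplicit false
open Set unitInterval Topology Filter Relation

noncomputable section

namespace Crest.Agent.N233.Ae

open Hyp Pc

variable {Ed F Nd : Type} [Group F] {W : Wl (Ed × Bool)}

/-- the node on the side `b` of the edge `e` -/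
def side (g : Ed × Bool → F) (wn : Ed × Bool → Nd) (b : Bool) (e : F × Ed) : F × Nd :=
  (e.1 * g (e.2, b), wn (e.2, b))

/-- the wall -/
def wall {J : Type} (W : Wl J) (j : J) : Set W.E := {x | W.t j x = 0}

/-- components `nd` and height `r` of a piece -/
structure Cp {J Nd : Type} (W : Wl J) (nd : W.E → Nd) (wn : J → Nd) (r : W.E → ℝ) : Prop where
  nd_w : ∀ j v, nd (W.w j v) = wn j
  r_w : ∀ j v, r (W.w j v) = ht v.2
  cont : Continuous r
  cl : ∀ n, IsClosed {x | nd x = n}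
  cpt : ∀ a, IsCompact {x | r x ≤ a}

/-- truncated component -/
def tr {E Nd : Type} (nd : E → Nd) (r : E → ℝ) (n : Nd) (a : ℝ) : Set E := {x | nd x = n ∧ r x ≤ a}

/-- walls that die: a wall dies if it is null-homotopic in one of its two pieces modulo dead walls -/
inductive Kl (Y : Type) [TopologicalSpace Y] (W : Wl (Ed × Bool)) (nd : W.E → Nd)
    (wn : Ed × Bool → Nd) (r : W.E → ℝ) : Ed → Prop
  | mk (j : Ed × Bool) (J : Set (Ed × Bool)) : (∀ j' ∈ J, Kl Y W nd wn r j'.1) →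
      (∀ a, 0 ≤ a → Nq Y (tr nd r (wn j) a) (Rel (wall W) J) (tr nd r (wn j) a ∩ wall W j)) →
      Kl Y W nd wn r j.1

/-- a wall dies if all chosen walls of one of its pieces die -/
theorem Kl.of_q {Y : Type} [TopologicalSpace Y] {nd : W.E → Nd} {wn : Ed × Bool → Nd}
    {r : W.E → ℝ} (j : Ed × Bool) (J : Set (Ed × Bool)) (h : ∀ j' ∈ J, Kl Y W nd wn r j'.1)
    (q : ∀ a, 0 ≤ a → Q Y (tr nd r (wn j) a) (Rel (wall W) J)) : Kl Y W nd wn r j.1 :=
  .mk j J h fun a ha => (q a ha).nq.mono Subset.rfl inter_subset_left fun _ _ _ _ k => k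

namespace Cp
variable {nd : W.E → Nd} {wn : Ed × Bool → Nd} {r : W.E → ℝ} (C : Cp W nd wn r)
  (g : Ed × Bool → F)

/-- pieces of the glued space -/
def EE (nd : W.E → Nd) (r : W.E → ℝ) (g : Ed × Bool → F) (a : ℝ) (v : F × Nd) : Set (W.Gl g) :=
  W.cy g v.1 '' tr nd r v.2 a

/-- walls of the glued space -/
def DD (W : Wl (Ed × Bool)) (g : Ed × Bool → F) (a : ℝ) (e : F × Ed) : Set (W.Gl g) :=
  (fun v => W.cy g (e.1 * g (e.2, true)) (W.w (e.2, true) v)) '' {v | ht v.2 ≤ a}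

theorem cy_b (f : F) (e : Ed) (b : Bool) (v : VW) :
    W.cy g (f * g (e, b)) (W.w (e, b) v) = W.cy g (f * g (e, true)) (W.w (e, true) v) := by
  cases b
  exacts [Wl.cy_w f (e, false) v, rfl]

theorem mem_DD {a : ℝ} {e : F × Ed} {f : F} {x : W.E} : W.cy g f x ∈ DD W g a e ↔
    ∃ b v, f = e.1 * g (e.2, b) ∧ x = W.w (e.2, b) v ∧ ht v.2 ≤ a := by
  constructor
  · rintro ⟨v, hv, k⟩
    rcases Wl.cy_eq.1 k with ⟨rfl, rfl⟩ | ⟨f0, j, v', k1, k2, rfl, rfl⟩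
    · exact ⟨true, v, rfl, rfl, hv⟩
    · obtain ⟨rfl, rfl⟩ := W.w_eq k2
      obtain rfl := mul_right_cancel k1
      exact ⟨false, v, rfl, rfl, hv⟩
  · rintro ⟨b, v, rfl, rfl, hv⟩
    exact ⟨v, hv, (cy_b g _ _ b v).symm⟩

include C

theorem cpt_tr (n : Nd) (a : ℝ) : IsCompact (tr nd r n a) := (C.cpt a).inter_left (C.cl n)

theorem w_tr {j : Ed × Bool} {v : VW} {a : ℝ} (h : ht v.2 ≤ a) : W.w j v ∈ tr nd r (wn j) a :=
  ⟨C.nd_w j v, by rw [C.r_w]; exact h⟩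

theorem DD_eq (a : ℝ) (f : F) (j : Ed × Bool) :
    DD W g a (f, j.1) = W.cy g (f * g j) '' (tr nd r (wn j) a ∩ wall W j) := by
  ext y
  constructor
  · rintro ⟨v, hv, rfl⟩
    exact ⟨W.w j v, ⟨C.w_tr hv, W.t_w j v⟩, cy_b g f j.1 j.2 v⟩
  · rintro ⟨x, ⟨k, k'⟩, rfl⟩
    obtain ⟨v, rfl⟩ := W.exists_w k'
    exact (mem_DD g).2 ⟨j.2, v, rfl, rfl, C.r_w j v ▸ k.2⟩

theorem cy_mem {a : ℝ} {n : Nd} {x : W.E} (hx : x ∈ tr nd r n a) {j : Ed × Bool}
    (hj : x ∈ wall W j) (f : F) : W.cy g f x ∈ DD W g a (f * (g j)⁻¹, j.1) ∧ wn j = n := by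
  obtain ⟨v, rfl⟩ := W.exists_w hj
  exact ⟨(mem_DD g).2 ⟨j.2, v, by simp, rfl, C.r_w j v ▸ hx.2⟩, (C.nd_w j v).symm.trans hx.1⟩

variable {g} (hc : Coc (side g wn true) (side g wn false))
include hc

omit C in
theorem side_ne (e : F × Ed) (b : Bool) : side g wn b e ≠ side g wn (!b) e := by
  cases b
  exacts [(src_ne_tgt hc e).symm, src_ne_tgt hc e]

theorem injOn (f : F) (n : Nd) (a : ℝ) : InjOn (W.cy g f) (tr nd r n a) := fun x hx x' hx' k => by
  rcases Wl.cy_eq.1 k with ⟨-, k⟩ | ⟨f0, j, v, k1, rfl, k2, rfl⟩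
  · exact k
  · exact absurd (Prod.ext (k1.symm.trans k2) (((C.nd_w _ v).symm.trans hx.1).trans
      (hx'.1.symm.trans (C.nd_w _ v)))) (side_ne hc (f0, j.1) j.2)

variable [Finite Ed]

theorem ts (hn : ∀ t t', ReflTransGen
      (fun u v => ∃ e, End (side g wn true) (side g wn false) e u v) t t')
    (cb : Ed → Bool) {a : ℝ} (ha : 0 ≤ a) :
    TS (side g wn true) (side g wn false) (fun e => side g wn (cb e.2) e)
      (fun e => side g wn (!cb e.2) e) (EE nd r g a) (DD W g a) where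
  coc := hc
  conn := hn
  ends e := by
    cases cb e.2
    exacts [Or.inr ⟨rfl, rfl⟩, Or.inl ⟨rfl, rfl⟩]
  fin v := (finite_range fun e : Ed => (v.1 * (g (e, cb e))⁻¹, e)).subset fun e he =>
    ⟨e.2, Prod.ext (by rw [← show _ = v from he]; simp [side]) rfl⟩
  cE v := (C.cpt_tr _ a).image (Wl.continuous_cy _)
  cD e := by
    rw [show DD W g a e = _ from C.DD_eq g a e.1 (e.2, true)]
    exact Wl.cy_closed _ _ ((C.cpt_tr _ a).isClosed.inter
      (isClosed_eq (W.t _).continuous continuous_const))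
  ne e := ⟨_, (alK 0, 0), (ht_eq_zero.2 (by simp)).le.trans ha, rfl⟩
  sub e := by
    rintro _ ⟨v, hv, rfl⟩
    exact ⟨⟨_, C.w_tr hv, rfl⟩, ⟨_, C.w_tr hv, cy_b g e.1 e.2 false v⟩⟩
  disj e e' := by
    rintro _ ⟨v, -, rfl⟩ k
    obtain ⟨b, v', k1, k2, -⟩ := (mem_DD g).1 k
    obtain ⟨k3, -⟩ := W.w_eq k2
    rw [← k3] at k1
    exact Prod.ext (mul_right_cancel k1) (congrArg Prod.fst k3)
  inter v w hvw := by
    rintro _ ⟨x, hx, rfl⟩ ⟨x', hx', k⟩
    rcases Wl.cy_eq.1 k.symm with ⟨k1, rfl⟩ | ⟨f0, ⟨e, b⟩, u, k1, rfl, k2, rfl⟩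
    · exact absurd (Prod.ext k1 (hx.1.symm.trans hx'.1)) hvw
    · have e1 : v = side g wn b (f0, e) := Prod.ext k1 (hx.1.symm.trans (C.nd_w _ u))
      have e2 : w = side g wn (!b) (f0, e) := Prod.ext k2 (hx'.1.symm.trans (C.nd_w _ u))
      refine ⟨(f0, e), ?_, (mem_DD g).2 ⟨b, u, k1, rfl, C.r_w _ u ▸ hx.2⟩⟩
      cases b
      exacts [Or.inr ⟨e1, e2⟩, Or.inl ⟨e1, e2⟩]

theorem q_EE {Y : Type} [TopologicalSpace Y] (cb : Ed → Bool) {a : ℝ} (v : F × Nd)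
    (q : Q Y (tr nd r v.2 a) (Rel (wall W) {j | wn j = v.2 ∧ cb j.1 = j.2})) (x₀ : W.E) :
    Q Y (EE nd r g a v) (Rel (DD W g a) {e | side g wn (cb e.2) e = v}) := by
  refine q.map (C.cpt_tr _ a) (Wl.continuous_cy _).continuousOn (C.injOn hc _ _ a)
    (fun x hx x' hx' => ⟨fun ⟨j, hj, k, k'⟩ => ⟨_, ?_, (C.cy_mem g hx k _).1,
      (C.cy_mem g hx' k' _).1⟩, fun ⟨e, he, k, k'⟩ => ⟨(e.2, cb e.2), ⟨congrArg Prod.snd he, rfl⟩,
        ?_, ?_⟩⟩) x₀
  · show side g wn (cb j.1) _ = v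
    rw [hj.2]
    exact Prod.ext (by simp [side]) hj.1
  all_goals
    first
    | obtain ⟨b, u, k1, rfl, -⟩ := (mem_DD g).1 k
      have e1 : v = side g wn b e := Prod.ext k1 (hx.1.symm.trans (C.nd_w _ u))
      by_cases hb : b = cb e.2
      · rw [← hb]; exact W.t_w _ u
      · exact absurd (he.trans (e1.trans (by rw [Bool.eq_not_of_ne hb]))) (side_ne hc e _)
    | obtain ⟨b, u, k1, rfl, -⟩ := (mem_DD g).1 k'
      have e1 : v = side g wn b e := Prod.ext k1 (hx'.1.symm.trans (C.nd_w _ u))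
      by_cases hb : b = cb e.2
      · rw [← hb]; exact W.t_w _ u
      · exact absurd (he.trans (e1.trans (by rw [Bool.eq_not_of_ne hb]))) (side_ne hc e _)

theorem nul_DD (hn : ∀ t t', ReflTransGen
      (fun u v => ∃ e, End (side g wn true) (side g wn false) e u v) t t') {a : ℝ} (ha : 0 ≤ a)
    {e : Ed} (h : Kl (W.Gl g) W nd wn r e) (f : F) : Nul (DD W g a (f, e)) := by
  have L : LNE (W.Gl g) := @lne_euc _ _ 4 (charted (Wl.le_all le_VW))
  induction h generalizing f with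
  | mk j J _ q ih =>
    rw [C.DD_eq g a f j]
    refine (C.ts hc hn (fun _ => true) ha).nul_of_nq L (v := (f * g j, wn j))
      (J := (fun j' : Ed × Bool => (f * g j * (g j')⁻¹, j'.1)) '' J) ((toFinite J).image _) ?_
      (image_mono inter_subset_left) ((q a ha).map (C.cpt_tr _ a) inter_subset_left
        (Wl.continuous_cy _).continuousOn (C.injOn hc _ _ a)
        (fun x hx x' hx' ⟨j', hj, k, k'⟩ => ⟨_, mem_image_of_mem _ hj, (C.cy_mem g hx k _).1,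
          (C.cy_mem g hx' k' _).1⟩) (W.w j (alK 0, 0)))
    rintro _ ⟨j', hj, rfl⟩
    exact ih j' hj _

/-- **the glued space has null-homotopic compact sets** -/
theorem null [Finite Nd] (hn : ∀ t t', ReflTransGen
      (fun u v => ∃ e, End (side g wn true) (side g wn false) e u v) t t') (cb : Ed → Bool)
    (x₀ : W.E) (hq : ∀ n a, 0 ≤ a →
      Q (W.Gl g) (tr nd r n a) (Rel (wall W) {j | wn j = n ∧ cb j.1 = j.2}))
    (hk : ∀ e, Kl (W.Gl g) W nd wn r e) : Null (W.Gl g) := fun K hK => by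
  have L : LNE (W.Gl g) := @lne_euc _ _ 4 (charted (Wl.le_all le_VW))
  have : Nonempty (F × Nd) := ⟨(1, nd x₀)⟩
  let ρ : W.Gl g → ℝ := Wl.lift (fun _ x => r x) fun _ j v => by rw [C.r_w, C.r_w]
  have cρ : Continuous ρ := Wl.continuous_iff.2 fun _ => C.cont
  obtain ⟨a, ha⟩ := (hK.image cρ).bddAbove
  refine ((C.ts hc hn cb (le_max_left 0 a)).nul_fin L
    (fun v => C.q_EE hc cb v (hq _ _ (le_max_left 0 a)) x₀)
    (fun e => C.nul_DD hc hn (le_max_left 0 a) (hk e.2) e.1)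
    ((Wl.finite_copies hK).prod finite_univ)).mono fun y hy => ?_
  obtain ⟨f, x, rfl⟩ := Wl.exists_cy y
  exact mem_iUnion₂.2 ⟨(f, nd x), ⟨⟨x, hy⟩, trivial⟩, x,
    ⟨rfl, le_max_of_le_right (ha (mem_image_of_mem ρ hy))⟩, rfl⟩

end Cp

end Crest.Agent.N233.Ae

end
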