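import Crest.Agent.N233.Ae.Q
import Crest.Agent.N233.Hyp.Mir

/-!
# Row 233 (helper61): a directed tree of spaces, each of which collapses onto its chosen walls, all
walls null-homotopic: every finite union of pieces is null-homotopic.
-/

set_option autoImplicit false
open Set unitInterval Topology Filter Relation

noncomputable section

namespace Crest.Agent.N233.Ae

open Hyp

variable {N Ed : Type} (src tgt : Ed → N)

/-- finite subtrees containing `o` -/
inductive Sub (o : N) : Set N → Prop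
  | base : Sub o {o}
  | add {S : Set N} {e : Ed} {u w : N} : Sub o S → End src tgt e u w → u ∈ S → w ∉ S →
      Sub o (S ∪ {w})

variable {src tgt}

theorem Sub.finite {o : N} {S : Set N} (h : Sub src tgt o S) : S.Finite := by
  induction h with
  | base => exact finite_singleton _
  | add _ _ _ _ ih => exact ih.union (finite_singleton _)

theorem Sub.mem {o : N} {S : Set N} (h : Sub src tgt o S) : o ∈ S := by
  induction h with
  | base => rfl
  | add _ _ _ _ ih => exact Or.inl ih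

theorem Sub.const {o : N} {S : Set N} (h : Sub src tgt o S) {H : Type} (c : N → H)
    (hc : ∀ e, src e ∈ S → tgt e ∈ S → c (tgt e) = c (src e)) : ∀ v ∈ S, c v = c o := by
  induction h with
  | base => rintro _ rfl; rfl
  | @add S e u w _ he hu _ ih =>
    have ih' := ih fun e a b => hc e (Or.inl a) (Or.inl b)
    rintro v (hv | rfl)
    · exact ih' v hv
    · rw [← ih' u hu]
      rcases he with ⟨rfl, h2⟩ | ⟨rfl, h2⟩
      · rw [h2]; exact hc e (Or.inl hu) (Or.inr h2.symm)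
      · rw [h2]; exact (hc e (Or.inr h2.symm) (Or.inl hu)).symm

theorem exists_sep (hc : Coc src tgt) (e : Ed) :
    ∃ c : N → Multiplicative ℤ, c (tgt e) ≠ c (src e) ∧ ∀ e' ≠ e, c (tgt e') = c (src e') := by
  classical
  obtain ⟨c, h⟩ := hc (Multiplicative ℤ) fun e' => if e' = e then Multiplicative.ofAdd 1 else 1
  refine ⟨c, ?_, fun e' k => by rw [h, if_neg k, mul_one]⟩
  rw [h, if_pos rfl, Ne, mul_eq_left]
  decide

theorem src_ne_tgt (hc : Coc src tgt) (e : Ed) : src e ≠ tgt e := fun k =>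
  let ⟨_, h, _⟩ := exists_sep hc e
  h (by rw [k])

theorem End.ne (hc : Coc src tgt) {e : Ed} {u w : N} (h : End src tgt e u w) : u ≠ w := by
  rcases h with ⟨rfl, rfl⟩ | ⟨rfl, rfl⟩
  exacts [src_ne_tgt hc e, (src_ne_tgt hc e).symm]

theorem Sub.uniq (hc : Coc src tgt) {o : N} {S : Set N} (h : Sub src tgt o S) {e e' : Ed}
    {u u' w : N} (he : End src tgt e u w) (he' : End src tgt e' u' w) (hu : u ∈ S) (hu' : u' ∈ S)
    (hw : w ∉ S) : e' = e := by
  by_contra k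
  obtain ⟨c, h1, h2⟩ := exists_sep hc e
  have h3 := h.const c fun d a b => h2 d fun k => hw (by
    subst k
    rcases he with ⟨-, rfl⟩ | ⟨-, rfl⟩
    exacts [b, a])
  have h4 : c w = c u' := by
    rcases he' with ⟨rfl, rfl⟩ | ⟨rfl, rfl⟩
    exacts [h2 _ k, (h2 _ k).symm]
  rw [h3 u' hu', ← h3 u hu] at h4
  rcases he with ⟨rfl, rfl⟩ | ⟨rfl, rfl⟩
  exacts [h1 h4, h1 h4.symm]

theorem Sub.grow {o : N} {S : Set N} (h : Sub src tgt o S) {u t : N} (hu : u ∈ S)
    (p : ReflTransGen (fun u v => ∃ e, End src tgt e u v) u t) :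
    ∃ S', Sub src tgt o S' ∧ S ⊆ S' ∧ t ∈ S' := by
  induction p with
  | refl => exact ⟨S, h, Subset.rfl, hu⟩
  | @tail b t _ k ih =>
    obtain ⟨S', a, s, m⟩ := ih
    obtain ⟨e, he⟩ := k
    by_cases k : t ∈ S'
    · exact ⟨S', a, s, k⟩
    · exact ⟨_, a.add he m k, s.trans subset_union_left, Or.inr rfl⟩

theorem exists_sub (hc : ∀ t t', ReflTransGen (fun u v => ∃ e, End src tgt e u v) t t') (o : N)
    {S : Set N} (hS : S.Finite) : ∃ S', Sub src tgt o S' ∧ S ⊆ S' := by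
  induction S, hS using Set.Finite.induction_on with
  | empty => exact ⟨_, .base, empty_subset _⟩
  | @insert a s _ _ ih =>
    obtain ⟨S', h, k⟩ := ih
    obtain ⟨S'', h', k', m⟩ := h.grow h.mem (hc o a)
    exact ⟨S'', h', insert_subset m (k.trans k')⟩

/-- a directed tree of compact sets: the wall `D e` is chosen at `ch e` -/
structure TS {X : Type} [TopologicalSpace X] (src tgt ch ot : Ed → N) (E : N → Set X)
    (D : Ed → Set X) : Prop where
  coc : Coc src tgt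
  conn : ∀ t t', ReflTransGen (fun u v => ∃ e, End src tgt e u v) t t'
  ends : ∀ e, End src tgt e (ch e) (ot e)
  fin : ∀ v, {e | ch e = v}.Finite
  cE : ∀ v, IsCompact (E v)
  cD : ∀ e, IsClosed (D e)
  ne : ∀ e, (D e).Nonempty
  sub : ∀ e, D e ⊆ E (src e) ∩ E (tgt e)
  disj : ∀ e e', ∀ x ∈ D e, x ∈ D e' → e = e'
  inter : ∀ v w, v ≠ w → ∀ x ∈ E v, x ∈ E w → ∃ e, End src tgt e v w ∧ x ∈ D e

namespace TS
variable {X : Type} [TopologicalSpace X] {ch ot : Ed → N} {E : N → Set X} {D : Ed → Set X}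
  (T : TS src tgt ch ot E D)
include T

theorem subE {e : Ed} {u w : N} (h : End src tgt e u w) : D e ⊆ E u := fun x hx => by
  rcases h with ⟨rfl, -⟩ | ⟨rfl, -⟩
  exacts [(T.sub e hx).1, (T.sub e hx).2]

theorem ends' {e : Ed} {u w : N} (h : End src tgt e u w) :
    (ch e = u ∧ ot e = w) ∨ (ch e = w ∧ ot e = u) := by
  rcases h with ⟨rfl, rfl⟩ | ⟨rfl, rfl⟩ <;> rcases T.ends e with ⟨a, b⟩ | ⟨a, b⟩ <;> simp [a, b]

theorem of_mem {e : Ed} {v : N} {x : X} (h : x ∈ D e) (hv : x ∈ E v) : v = ch e ∨ v = ot e := by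
  by_cases k : v = ch e
  · exact Or.inl k
  obtain ⟨e', a, b⟩ := T.inter v _ k x hv (T.subE (T.ends e) h)
  rw [T.disj e' e x b h] at a
  exact (T.ends' a).elim (fun k' => absurd k'.1.symm k) fun k' => Or.inr k'.2.symm

omit T in
/-- the walls leaving `S` -/
def out (ch ot : Ed → N) (S : Set N) : Set Ed := {e | ch e ∈ S ∧ ot e ∉ S}

theorem out_fin {S : Set N} (hS : S.Finite) : (out ch ot S).Finite :=
  (hS.biUnion fun v _ => T.fin v).subset fun _ he => mem_iUnion₂.2 ⟨_, he.1, rfl⟩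

theorem mem_of {S : Set N} {e : Ed} {x : X} (h : x ∈ D e) (hx : x ∈ ⋃ v ∈ S, E v) :
    ch e ∈ S ∨ ot e ∈ S := by
  obtain ⟨v, hv, k⟩ := mem_iUnion₂.1 hx
  exact (T.of_mem h k).imp (fun (a : v = ch e) => a ▸ hv) fun (a : v = ot e) => a ▸ hv

variable [T2Space X] {Y : Type} [TopologicalSpace Y]

theorem q_union (h : LNE Y) {S S' : Set N} (hS : S.Finite) (hS' : S'.Finite) (d : Disjoint S S')
    {e₀ : Ed} (a₀ : ch e₀ ∈ S) (b₀ : ot e₀ ∈ S')
    (u : ∀ e v w, End src tgt e v w → v ∈ S → w ∈ S' → e = e₀)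
    (q : Q Y (⋃ v ∈ S, E v) (Rel D (out ch ot S)))
    (q' : Q Y (⋃ v ∈ S', E v) (Rel D (out ch ot S'))) :
    Q Y (⋃ v ∈ S ∪ S', E v) (Rel D (out ch ot (S ∪ S'))) := by
  obtain ⟨x₀, h₀⟩ := T.ne e₀
  have dj : ∀ {v}, v ∈ S → v ∉ S' := fun k => disjoint_left.1 d k
  have i1 : ∀ {S : Set N} {e x}, ch e ∈ S → x ∈ D e → x ∈ ⋃ v ∈ S, E v := fun k hx =>
    mem_iUnion₂.2 ⟨_, k, T.subE (T.ends _) hx⟩
  have i2 : ∀ {S : Set N} {e x}, ot e ∈ S → x ∈ D e → x ∈ ⋃ v ∈ S, E v := fun k hx =>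
    mem_iUnion₂.2 ⟨_, k, T.subE (T.ends _).symm hx⟩
  have fL : (out ch ot S ∩ {e | ot e ∉ S'}).Finite := (T.out_fin hS).inter_of_left _
  rw [biUnion_union]
  refine Q.glue h q q' (hS.isCompact_biUnion fun v _ => T.cE v)
    (hS'.isClosed_biUnion fun v _ => (T.cE v).isClosed) (i1 a₀ h₀) (i2 b₀ h₀) (fun x a b => ?_)
    (L := ⋃ e ∈ out ch ot S ∩ {e | ot e ∉ S'}, D e) (fL.isClosed_biUnion fun e _ => T.cD e)
    (disjoint_left.2 fun x a b => ?_) (fun x _ x' _ ⟨e, he, p, p'⟩ => ?_)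
    (fun x _ x' _ ⟨e, he, p, p'⟩ => ?_) fun x _ x' _ ⟨e, he, p, p'⟩ => ?_
  · obtain ⟨v, hv, a⟩ := mem_iUnion₂.1 a
    obtain ⟨w, hw, b⟩ := mem_iUnion₂.1 b
    obtain ⟨e, he, k⟩ := T.inter v w (fun k => dj hv (k ▸ hw)) x a b
    exact ⟨e₀, ⟨a₀, fun k => dj k b₀⟩, u e v w he hv hw ▸ k, h₀⟩
  · obtain ⟨e, he, a⟩ := mem_iUnion₂.1 a
    exact (T.mem_of a b).elim (dj he.1.1) he.2
  · by_cases k : ot e ∈ S'
    · exact Or.inl ⟨i2 k p, i2 k p'⟩
    · exact Or.inr ⟨mem_iUnion₂.2 ⟨e, ⟨he, k⟩, p⟩, mem_iUnion₂.2 ⟨e, ⟨he, k⟩, p'⟩, e,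
        ⟨Or.inl he.1, fun k' => k'.elim he.2 k⟩, p, p'⟩
  · refine ⟨e, ⟨Or.inr he.1, fun k' => k'.elim (fun k => ?_) he.2⟩, p, p'⟩
    have := u e _ _ (T.ends e).symm k he.1
    subst this
    exact dj a₀ he.1
  · rcases he.1 with k | k
    · have m : e ∈ out ch ot S ∩ {e | ot e ∉ S'} :=
        ⟨⟨k, fun k' => he.2 (Or.inl k')⟩, fun k' => he.2 (Or.inr k')⟩
      exact Or.inr ⟨i1 k p, i1 k p', mem_iUnion₂.2 ⟨e, m, p⟩, mem_iUnion₂.2 ⟨e, m, p'⟩, e, m.1,
        p, p'⟩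
    · exact Or.inl ⟨i1 k p, i1 k p', e, ⟨k, fun k' => he.2 (Or.inr k')⟩, p, p'⟩

theorem q_sub (h : LNE Y) (hq : ∀ v, Q Y (E v) (Rel D {e | ch e = v})) {o : N} {S : Set N}
    (hS : Sub src tgt o S) : Q Y (⋃ v ∈ S, E v) (Rel D (out ch ot S)) := by
  have one : ∀ v, Q Y (⋃ w ∈ ({v} : Set N), E w) (Rel D (out ch ot {v})) := fun v => by
    have : out ch ot {v} = {e | ch e = v} := Set.ext fun e =>
      ⟨fun k => k.1, fun k => ⟨k, fun k' => End.ne T.coc (T.ends e) (k.trans k'.symm)⟩⟩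
    rw [this, biUnion_singleton]
    exact hq v
  induction hS with
  | base => exact one o
  | @add S e u w hS he hu hw ih =>
    have d : Disjoint S {w} := disjoint_singleton_right.2 hw
    rcases T.ends' he with ⟨a, b⟩ | ⟨a, b⟩
    · exact T.q_union h hS.finite (finite_singleton _) d (e₀ := e) (a ▸ hu) b
        (fun e' v w' k hv hw' => hS.uniq T.coc he (hw' ▸ k) hu hv hw) ih (one w)
    · rw [union_comm]
      exact T.q_union h (finite_singleton _) hS.finite d.symm (e₀ := e) a (b ▸ hu)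
        (fun e' v w' k hv hw' => hS.uniq T.coc he (hv ▸ k.symm) hu hw' hw) (one w) ih

/-- depth step: a subset of a piece which is null-homotopic modulo null-homotopic walls -/
theorem nul_of_nq (h : LNE X) {v : N} {J : Set Ed} (hJ : J.Finite) (hn : ∀ e ∈ J, Nul (D e))
    {B : Set X} (hB : B ⊆ E v) (hq : Nq X (E v) (Rel D J) B) : Nul B :=
  hq.nul h (T.cE v) hB hJ (fun e _ => T.cD e) (fun e _ e' _ => T.disj e e') continuousOn_id
    fun e he => (hn e he).mono inter_subset_right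

theorem nul_fin [Nonempty N] (h : LNE X) (hq : ∀ v, Q X (E v) (Rel D {e | ch e = v}))
    (hn : ∀ e, Nul (D e)) {S : Set N} (hS : S.Finite) : Nul (⋃ v ∈ S, E v) := by
  obtain ⟨S', a, b⟩ := exists_sub T.conn (Classical.arbitrary N) hS
  exact ((T.q_sub h hq a).nq.nul h (a.finite.isCompact_biUnion fun v _ => T.cE v) Subset.rfl
    (T.out_fin a.finite) (fun e _ => T.cD e) (fun e _ e' _ => T.disj e e') continuousOn_id
    fun e _ => (hn e).mono inter_subset_right).mono (biUnion_subset_biUnion_left b)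

/-- **collapse**: `r` pushes the space into the locally finite union of the pieces -/
theorem null [Nonempty N] (h : LNE X) (hq : ∀ v, Q X (E v) (Rel D {e | ch e = v}))
    (hn : ∀ e, Nul (D e)) (lf : LocallyFinite E) {r : X × I → X} (c : Continuous r)
    (r0 : ∀ x, r (x, 0) = x) (r1 : ∀ x, ∃ v, r (x, 1) ∈ E v) : Null X := fun K hK => by
  have k := lf.finite_nonempty_inter_compact
    (hK.image (f := fun x => r (x, 1)) (by fun_prop))
  refine (T.nul_fin h hq hn k).of_deform c.continuousOn (fun x _ => r0 x) fun x hx => ?_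
  obtain ⟨v, hv⟩ := r1 x
  exact mem_iUnion₂.2 ⟨v, ⟨_, hv, mem_image_of_mem _ hx⟩, hv⟩

end TS

end Crest.Agent.N233.Ae

end
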