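import Crest.Agent.N233.Ae.Ne
import Crest.Agent.N233.Defs

/-!
# Row 233 (helper61): equivariant extension of maps from free proper `F`-spaces into a manifold
whose compact subsets are null-homotopic; the homotopy data of a `Fill`.
-/

set_option autoImplicit false
open Set unitInterval Topology Filter

noncomputable section

namespace Crest.Agent.N233.Ae

section
variable {F Z X : Type} [Group F] [TopologicalSpace Z] [MulAction F Z] [TopologicalSpace X]
  [MulAction F X]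

/-- an equivariant map on a closed invariant set -/
structure Part (F : Type) {Z X : Type} [Group F] [TopologicalSpace Z] [MulAction F Z]
    [TopologicalSpace X] [MulAction F X] (A : Set Z) (f : Z → X) : Prop where
  cl : IsClosed A
  inv : ∀ (γ : F) z, z ∈ A → γ • z ∈ A
  cont : ContinuousOn f A
  eqv : ∀ (γ : F) z, z ∈ A → f (γ • z) = γ • f z

variable [T2Space Z] [ContinuousConstSMul F Z] [ProperlyDiscontinuousSMul F Z]
  [ContinuousConstSMul F X]

omit [T2Space Z] [ContinuousConstSMul F Z] in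
theorem lf_sat [WeaklyLocallyCompactSpace Z] {K : Set Z} (hK : IsCompact K) :
    LocallyFinite fun γ : F => {z : Z | γ • z ∈ K} := fun z => by
  obtain ⟨N, cN, hN⟩ := exists_compact_mem_nhds z
  exact ⟨N, hN, (finite_disjoint_inter_image (Γ := F) cN hK).subset
    fun γ ⟨y, a, b⟩ => ⟨γ • y, mem_image_of_mem _ b, a⟩⟩

theorem Part.step [WeaklyLocallyCompactSpace Z] (h : LNE X) (hn : Null X) {A : Set Z} {f : Z → X}
    (P : Part F A f) {K : Set Z} (hK : IsCompact K)
    (hs : ∀ (γ : F) z, z ∈ K → γ • z ∈ K → γ = 1) :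
    ∃ f' : Z → X, Part F (A ∪ ⋃ γ : F, {z | γ • z ∈ K}) f' ∧ EqOn f' f A := by
  classical
  obtain ⟨g, cg, eg⟩ := h.ae hn hK P.cl (P.cont.mono inter_subset_right)
  set f' : Z → X := fun z =>
    if k : ∃ γ : F, γ • z ∈ K then k.choose⁻¹ • g (k.choose • z) else f z with hf'
  have e1 : ∀ (γ : F) z, γ • z ∈ K → f' z = γ⁻¹ • g (γ • z) := fun γ z hz => by
    have k : ∃ γ : F, γ • z ∈ K := ⟨γ, hz⟩
    have : k.choose * γ⁻¹ = 1 := hs _ _ hz (by rw [mul_smul, inv_smul_smul]; exact k.choose_spec)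
    rw [hf']
    simp only [dif_pos k]
    rw [mul_inv_eq_one.1 this]
  have e2 : EqOn f' f A := fun z hz => by
    by_cases k : ∃ γ : F, γ • z ∈ K
    · obtain ⟨γ, k⟩ := k
      rw [e1 γ z k, eg ⟨k, P.inv γ z hz⟩, P.eqv γ z hz, inv_smul_smul]
    · exact dif_neg k
  have cl : ∀ γ : F, IsClosed {z : Z | γ • z ∈ K} := fun γ =>
    hK.isClosed.preimage (continuous_const_smul γ)
  have cl' := (lf_sat (F := F) hK).isClosed_iUnion cl
  refine ⟨f', ⟨P.cl.union cl', fun γ z hz => hz.imp (P.inv γ z) fun hz => ?_,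
    (P.cont.congr e2).union_of_isClosed ((lf_sat hK).continuousOn_iUnion cl fun γ => ?_) P.cl cl',
    fun γ z hz => ?_⟩, e2⟩
  · obtain ⟨δ, hδ⟩ := mem_iUnion.1 hz
    exact mem_iUnion.2 ⟨δ * γ⁻¹, by
      show (δ * γ⁻¹) • γ • z ∈ K
      rw [mul_smul, inv_smul_smul]; exact hδ⟩
  · exact ((cg.comp (continuous_const_smul γ).continuousOn fun _ hz => hz).const_smul γ⁻¹).congr
      fun z hz => e1 γ z hz
  · rcases hz with hz | hz
    · rw [e2 hz, e2 (P.inv γ z hz), P.eqv γ z hz]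
    · obtain ⟨δ, hδ⟩ := mem_iUnion.1 hz
      have k : (δ * γ⁻¹) • γ • z = δ • z := by rw [mul_smul, inv_smul_smul]
      rw [e1 (δ * γ⁻¹) (γ • z) (by rw [k]; exact hδ), e1 δ z hδ, k, mul_inv_rev, inv_inv, mul_smul]

/-- **equivariant extension** -/
theorem Part.ext [LocallyCompactSpace Z] [SigmaCompactSpace Z] (h : LNE X) (hn : Null X)
    (free : ∀ (γ : F) (z : Z), γ • z = z → γ = 1) {A : Set Z} {f : Z → X} (P : Part F A f) :
    ∃ g : C(Z, X), (∀ (γ : F) z, g (γ • z) = γ • g z) ∧ EqOn g f A := by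
  have hK : ∀ z : Z, ∃ K : Set Z, IsCompact K ∧ K ∈ 𝓝 z ∧
      ∀ (γ : F) y, y ∈ K → γ • y ∈ K → γ = 1 := fun z => by
    obtain ⟨U, hU, hγ⟩ := ProperlyDiscontinuousSMul.exists_nhds_image_smul_eq_self F z
    obtain ⟨K, a, b, c⟩ := local_compact_nhds hU
    exact ⟨K, c, a, fun γ y k1 k2 => free γ z (hγ γ ⟨γ • y, mem_image_of_mem _ (b k1), b k2⟩)⟩
  choose K cK nK sK using hK
  obtain ⟨s, cs, hs⟩ := countable_cover_nhds_of_sigmaCompact (f := fun z => interior (K z))
    fun z => interior_mem_nhds.2 (nK z)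
  rcases isEmpty_or_nonempty Z with hZ | hZ
  · exact ⟨⟨f, continuous_of_discreteTopology⟩, fun _ z => isEmptyElim z, fun _ _ => rfl⟩
  obtain ⟨c, hc⟩ : ∃ c : ℕ → Z, s ⊆ range c := by
    obtain ⟨c, hc⟩ := (cs.insert (Classical.arbitrary Z)).exists_eq_range (insert_nonempty _ _)
    exact ⟨c, hc ▸ subset_insert _ _⟩
  have hN : ∀ z, ∃ n, z ∈ interior (K (c n)) := fun z => by
    obtain ⟨y, hy, hz⟩ := mem_iUnion₂.1 (hs.symm ▸ mem_univ z : z ∈ ⋃ y ∈ s, interior (K y))
    obtain ⟨n, rfl⟩ := hc hy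
    exact ⟨n, hz⟩
  choose N hN using hN
  have st : ∀ (n : ℕ) (S : {q : Set Z × (Z → X) // Part F q.1 q.2}),
      ∃ S' : {q : Set Z × (Z → X) // Part F q.1 q.2},
        S.1.1 ⊆ S'.1.1 ∧ K (c n) ⊆ S'.1.1 ∧ EqOn S'.1.2 S.1.2 S.1.1 := fun n S => by
    obtain ⟨f', a, b⟩ := S.2.step h hn (cK (c n)) (sK (c n))
    exact ⟨⟨(_, f'), a⟩, subset_union_left,
      fun z hz => Or.inr (mem_iUnion.2 ⟨1, by simpa using hz⟩), b⟩
  choose nx s1 s2 s3 using st
  let S : ℕ → {q : Set Z × (Z → X) // Part F q.1 q.2} :=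
    fun n => Nat.rec ⟨(A, f), P⟩ (fun n S => nx n S) n
  have mono : ∀ n m, n ≤ m → (S n).1.1 ⊆ (S m).1.1 ∧ EqOn (S m).1.2 (S n).1.2 (S n).1.1 := by
    intro n m hnm
    induction hnm with
    | refl => exact ⟨Subset.rfl, fun _ _ => rfl⟩
    | step _ ih => exact ⟨ih.1.trans (s1 _ _), fun z hz => (s3 _ _ (ih.1 hz)).trans (ih.2 hz)⟩
  set g : Z → X := fun z => (S (N z + 1)).1.2 z with hg
  have hin : ∀ n, K (c n) ⊆ (S (n + 1)).1.1 := fun n => s2 n (S n)
  have eg : ∀ n, EqOn g (S n).1.2 (S n).1.1 := fun n z hz =>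
    ((mono _ _ (le_max_left (N z + 1) n)).2 (hin _ (interior_subset (hN z)))).symm.trans
      ((mono _ _ (le_max_right (N z + 1) n)).2 hz)
  refine ⟨⟨g, continuous_iff_continuousAt.2 fun z => ?_⟩, fun γ z => ?_, eg 0⟩
  · exact (((S (N z + 1)).2.cont).congr (eg (N z + 1))).continuousAt
      (mem_of_superset (mem_interior_iff_mem_nhds.1 (hN z)) (hin _))
  · have hz := hin _ (interior_subset (hN z))
    show g (γ • z) = γ • g z
    rw [eg (N z + 1) ((S (N z + 1)).2.inv γ z hz), eg (N z + 1) hz, (S (N z + 1)).2.eqv γ z hz]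

end

/-- the trivial action on the interval -/
@[reducible] def trivI (F : Type) [Group F] : MulAction F I where
  smul _ t := t
  one_smul _ := rfl
  mul_smul _ _ _ := rfl

theorem pd_prod {F Z Y : Type} [Group F] [TopologicalSpace Z] [TopologicalSpace Y] [SMul F Z]
    [SMul F Y] [ProperlyDiscontinuousSMul F Z] : ProperlyDiscontinuousSMul F (Z × Y) :=
  ⟨fun hK hL => (finite_disjoint_inter_image (Γ := F) (hK.image continuous_fst)
    (hL.image continuous_fst)).subset fun _ ⟨_, ⟨q, a, b⟩, c⟩ =>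
      ⟨_, ⟨q.1, mem_image_of_mem _ a, congrArg Prod.fst b⟩, mem_image_of_mem _ c⟩⟩

section
variable {F Z X : Type} [Group F] [TopologicalSpace Z] [MulAction F Z] [TopologicalSpace X]
  [MulAction F X] [T2Space Z] [ContinuousConstSMul F Z] [ProperlyDiscontinuousSMul F Z]
  [ContinuousConstSMul F X] [LocallyCompactSpace Z] [SigmaCompactSpace Z]

theorem exists_map (h : LNE X) (hn : Null X) (free : ∀ (γ : F) (z : Z), γ • z = z → γ = 1) :
    ∃ g : C(Z, X), ∀ (γ : F) z, g (γ • z) = γ • g z := by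
  obtain ⟨-, y, -⟩ := hn ∅ isCompact_empty
  obtain ⟨g, a, -⟩ := Part.ext h hn free (A := ∅) (f := fun _ => y)
    ⟨isClosed_empty, fun _ _ k => k, continuousOn_empty _, fun _ _ k => k.elim⟩
  exact ⟨g, a⟩

/-- equivariant homotopies between equivariant maps, prescribed on a closed invariant set -/
theorem exists_htpy (h : LNE X) (hn : Null X) (free : ∀ (γ : F) (z : Z), γ • z = z → γ = 1)
    {f₀ f₁ : Z → X} (c₀ : Continuous f₀) (c₁ : Continuous f₁)
    (e₀ : ∀ (γ : F) z, f₀ (γ • z) = γ • f₀ z) (e₁ : ∀ (γ : F) z, f₁ (γ • z) = γ • f₁ z)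
    {A : Set Z} (hA : IsClosed A) (iA : ∀ (γ : F) z, z ∈ A → γ • z ∈ A) {H : Z × I → X}
    (cH : ContinuousOn H (A ×ˢ univ))
    (eH : ∀ (γ : F) z t, z ∈ A → H (γ • z, t) = γ • H (z, t))
    (H₀ : ∀ z ∈ A, H (z, 0) = f₀ z) (H₁ : ∀ z ∈ A, H (z, 1) = f₁ z) :
    ∃ G : C(Z × I, X), (∀ (γ : F) z t, G (γ • z, t) = γ • G (z, t)) ∧ (∀ z, G (z, 0) = f₀ z) ∧
      (∀ z, G (z, 1) = f₁ z) ∧ ∀ z ∈ A, ∀ t, G (z, t) = H (z, t) := by
  classical
  let _ := trivI F
  have : ContinuousConstSMul F I := ⟨fun _ => continuous_id⟩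
  have : ProperlyDiscontinuousSMul F (Z × I) := pd_prod
  set Φ : Z × I → X := fun q => if q.2 = 0 then f₀ q.1 else if q.2 = 1 then f₁ q.1 else H q
    with hΦ
  have a0 : ∀ z, Φ (z, 0) = f₀ z := fun z => if_pos rfl
  have a1 : ∀ z, Φ (z, 1) = f₁ z := fun z => (if_neg one_ne_zero).trans (if_pos rfl)
  have a2 : ∀ z ∈ A, ∀ t, Φ (z, t) = H (z, t) := fun z hz t => by
    by_cases k0 : t = 0
    · rw [k0, a0, H₀ z hz]
    by_cases k1 : t = 1
    · rw [k1, a1, H₁ z hz]
    exact (if_neg k0).trans (if_neg k1)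
  have k0 : IsClosed {q : Z × I | q.2 = 0} := isClosed_eq continuous_snd continuous_const
  have k1 : IsClosed {q : Z × I | q.2 = 1} := isClosed_eq continuous_snd continuous_const
  have k2 : IsClosed (A ×ˢ (univ : Set I)) := hA.prod isClosed_univ
  obtain ⟨G, a, b⟩ := Part.ext (F := F) h hn (fun γ q k => free γ q.1 (congrArg Prod.fst k))
    (A := ({q : Z × I | q.2 = 0} ∪ {q | q.2 = 1}) ∪ A ×ˢ univ) (f := Φ)
    ⟨(k0.union k1).union k2,
      fun γ q hq => hq.imp id fun k => ⟨iA γ q.1 k.1, trivial⟩,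
      (((c₀.comp continuous_fst).continuousOn.congr fun q (hq : q.2 = 0) => if_pos hq).union_of_isClosed
        ((c₁.comp continuous_fst).continuousOn.congr fun q (hq : q.2 = 1) =>
          (if_neg (hq ▸ one_ne_zero)).trans (if_pos hq)) k0 k1).union_of_isClosed
        (cH.congr fun q hq => a2 q.1 hq.1 q.2) (k0.union k1) k2,
      fun γ ⟨z, t⟩ hq => by
        show Φ (γ • z, t) = γ • Φ (z, t)
        rcases hq with (k | k) | k
        · rw [show t = 0 from k, a0, a0, e₀]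
        · rw [show t = 1 from k, a1, a1, e₁]
        · rw [a2 _ (iA γ z k.1), a2 _ k.1, eH γ z t k.1]⟩
  exact ⟨G, fun γ z t => a γ (z, t), fun z => (b (Or.inl (Or.inl rfl))).trans (a0 z),
    fun z => (b (Or.inl (Or.inr rfl))).trans (a1 z),
    fun z hz t => (b (Or.inr ⟨hz, trivial⟩)).trans (a2 z hz t)⟩

/-- any two equivariant maps are equivariantly homotopic -/
theorem exists_htpy' (h : LNE X) (hn : Null X) (free : ∀ (γ : F) (z : Z), γ • z = z → γ = 1)
    {f₀ f₁ : Z → X} (c₀ : Continuous f₀) (c₁ : Continuous f₁)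
    (e₀ : ∀ (γ : F) z, f₀ (γ • z) = γ • f₀ z) (e₁ : ∀ (γ : F) z, f₁ (γ • z) = γ • f₁ z) :
    ∃ G : C(Z × I, X), (∀ (γ : F) z t, G (γ • z, t) = γ • G (z, t)) ∧ (∀ z, G (z, 0) = f₀ z) ∧
      ∀ z, G (z, 1) = f₁ z := by
  obtain ⟨G, a, b, c, -⟩ := exists_htpy h hn free c₀ c₁ e₀ e₁ isClosed_empty (fun _ _ k => k)
    (H := fun q => f₀ q.1) (by simp) (fun _ _ _ k => k.elim) (fun _ k => k.elim)
    fun _ k => k.elim
  exact ⟨G, a, b, c⟩

end

/-- an equivariant bicombing of `X` itself -/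
theorem exists_cmb {F X : Type} [Group F] [TopologicalSpace X] [MulAction F X] [T2Space X]
    [ContinuousConstSMul F X] [ProperlyDiscontinuousSMul F X] [LocallyCompactSpace X]
    [SigmaCompactSpace X] (h : LNE X) (hn : Null X)
    (free : ∀ (γ : F) (z : X), γ • z = z → γ = 1) : Nonempty (Cmb F X) := by
  have : ProperlyDiscontinuousSMul F (X × X) := pd_prod
  obtain ⟨G, a, b, c, d⟩ := exists_htpy (F := F) (Z := X × X) h hn
    (fun γ q k => free γ q.1 (congrArg Prod.fst k)) continuous_fst continuous_snd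
    (fun _ _ => rfl) (fun _ _ => rfl) (A := {q | q.1 = q.2})
    (isClosed_eq continuous_fst continuous_snd) (fun γ q (k : q.1 = q.2) => congrArg (γ • ·) k)
    (H := fun q => q.1.1) (by fun_prop) (fun _ _ _ _ => rfl) (fun _ _ => rfl) fun _ k => k
  exact ⟨⟨⟨fun q => G ((q.1, q.2.1), q.2.2), by fun_prop⟩, fun x y => b (x, y),
    fun x y => c (x, y), fun x t => d (x, x) rfl t, fun γ x y t => a γ (x, y) t⟩⟩

/-- a σ-compact manifold whose compact subsets are null-homotopic is contractible -/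
theorem contractible {X : Type} [TopologicalSpace X] [T2Space X] [LocallyCompactSpace X]
    [SigmaCompactSpace X] (h : LNE X) (hn : Null X) : ContractibleSpace X := by
  obtain ⟨-, y, -⟩ := hn ∅ isCompact_empty
  let _ : MulAction (Multiplicative Unit) X :=
    { smul := fun _ x => x, one_smul := fun _ => rfl, mul_smul := fun _ _ _ => rfl }
  have : ContinuousConstSMul (Multiplicative Unit) X := ⟨fun _ => continuous_id⟩
  obtain ⟨G, -, b, c⟩ := exists_htpy' (F := Multiplicative Unit) (Z := X) h hn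
    (fun _ _ _ => Subsingleton.elim _ _) continuous_id (continuous_const (y := y))
    (fun _ _ => rfl) fun _ _ => rfl
  exact (contractible_iff_id_nullhomotopic X).2
    ⟨y, ⟨⟨⟨fun q => G (q.2, q.1), by fun_prop⟩, b, c⟩⟩⟩

theorem null_of_contractible {X : Type} [TopologicalSpace X] [ContractibleSpace X] : Null X := by
  obtain ⟨y, ⟨H⟩⟩ := id_nullhomotopic X
  exact fun K _ => ⟨fun q => H (q.2, q.1), y, by fun_prop, fun z _ => H.apply_zero z,
    fun z _ => H.apply_one z⟩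

/-- a filling without the homotopy data -/
structure Pre {S : Type} (Fc : Set S → Prop) (F : Type) [Group F] (π : F → S → S) where
  X : Type
  [top : TopologicalSpace X]
  [t2 : T2Space X]
  [ch : ChartedSpace E4 X]
  [sc : SigmaCompactSpace X]
  [act : MulAction F X]
  [cont : ContinuousConstSMul F X]
  [pd : ProperlyDiscontinuousSMul F X]
  free : ∀ (f : F) (x : X), f • x = x → f = 1
  p : C(X, LI S)
  p_mem : ∀ x, p x ∈ Cone Fc
  p_smul : ∀ (f : F) x s, p (f • x) (π f s) = p x s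
  j : LI S → X
  j_cont : ContinuousOn j (Cone Fc \ {0})
  pj : ∀ y ∈ Cone Fc, y ≠ 0 → p (j y) = y
  jp : ∀ x, p x ≠ 0 → j (p x) = x
  cpt : ∃ K : Set X, IsCompact K ∧ ∀ x, ‖p x‖ ≤ 1 → ∃ f : F, f • x ∈ K

attribute [instance] Pre.top Pre.t2 Pre.ch Pre.sc Pre.act Pre.cont Pre.pd

namespace Pre
variable {S S' F : Type} [Group F] {Fc : Set S → Prop} {π : F → S → S} {Fc' : Set S' → Prop}
  {π' : F → S' → S'}

instance lc (P : Pre Fc F π) : LocallyCompactSpace P.X := ChartedSpace.locallyCompactSpace E4 P.X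

theorem lne (P : Pre Fc F π) : LNE P.X := lne_euc 4

theorem cmb (P : Pre Fc F π) (h : Null P.X) : Nonempty (Cmb F P.X) := exists_cmb P.lne h P.free

theorem abh (P : Pre Fc F π) (Q : Pre Fc' F π') (hP : Null P.X) (hQ : Null Q.X) :
    ∃ (a : C(P.X, Q.X)) (b : C(Q.X, P.X)) (h : C(P.X × I, P.X)),
      (∀ (f : F) x, a (f • x) = f • a x) ∧ (∀ (f : F) t, b (f • t) = f • b t) ∧
      (∀ (f : F) x t, h (f • x, t) = f • h (x, t)) ∧ (∀ x, h (x, 0) = x) ∧
      ∀ x, h (x, 1) = b (a x) := by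
  obtain ⟨a, ha⟩ := exists_map Q.lne hQ P.free
  obtain ⟨b, hb⟩ := exists_map P.lne hP Q.free
  obtain ⟨h, h1, h2, h3⟩ := exists_htpy' P.lne hP P.free continuous_id
    (b.continuous.comp a.continuous) (fun _ _ => rfl)
    fun f x => by simp only [Function.comp, ha, hb]
  exact ⟨a, b, h, ha, hb, h1, h2, h3⟩

/-- the filling over `T = Q.X`; its fields `X, p, j, …` are those of `P` by `rfl` -/
def fill (P : Pre Fc F π) (Q : Pre Fc' F π') (hP : Null P.X) (hQ : Null Q.X) : Fill Fc F π Q.X :=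
  { X := P.X
    ne := let ⟨_, y, _⟩ := hP ∅ isCompact_empty; ⟨y⟩
    free := P.free, p := P.p, p_mem := P.p_mem, p_smul := P.p_smul, j := P.j
    j_cont := P.j_cont, pj := P.pj, jp := P.jp, cpt := P.cpt
    a := (P.abh Q hP hQ).choose
    b := (P.abh Q hP hQ).choose_spec.choose
    h := (P.abh Q hP hQ).choose_spec.choose_spec.choose
    a_smul := (P.abh Q hP hQ).choose_spec.choose_spec.choose_spec.1
    b_smul := (P.abh Q hP hQ).choose_spec.choose_spec.choose_spec.2.1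
    h_smul := (P.abh Q hP hQ).choose_spec.choose_spec.choose_spec.2.2.1
    h_zero := (P.abh Q hP hQ).choose_spec.choose_spec.choose_spec.2.2.2.1
    h_one := (P.abh Q hP hQ).choose_spec.choose_spec.choose_spec.2.2.2.2 }

end Pre

end Crest.Agent.N233.Ae

end
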