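import Mathlib

/-!
# Row 233 (helper61): manifolds are neighbourhood extensors, Borsuk's homotopy extension theorem,
and extension of maps into a manifold all of whose compact subsets are null-homotopic.
-/

set_option autoImplicit false
open Set unitInterval Topology Filter

noncomputable section

namespace Crest.Agent.N233.Ae

theorem glue {Z Y : Type*} [TopologicalSpace Z] [TopologicalSpace Y] {f : Z → Y} {V A B : Set Z}
    (hA : IsClosed A) (hB : IsClosed B) (hV : V ⊆ A ∪ B) (ha : ContinuousOn f (V ∩ A))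
    (hb : ContinuousOn f (V ∩ B)) : ContinuousOn f V := by
  intro x hx
  have e : V = V ∩ A ∪ V ∩ B := by rw [← inter_union_distrib_left, inter_eq_left.2 hV]
  have h1 : ∀ {C : Set Z}, IsClosed C → ContinuousOn f (V ∩ C) → ContinuousWithinAt f (V ∩ C) x :=
    fun {C} hC hc => by
      by_cases h : x ∈ C
      · exact hc x ⟨hx, h⟩
      · exact continuousWithinAt_of_notMem_closure fun h' =>
          h (hC.closure_subset (closure_mono inter_subset_right h'))
  rw [e]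
  exact (h1 hA ha).union (h1 hB hb)

variable {X : Type} [TopologicalSpace X]

/-- `U` is a neighbourhood extensor for normal spaces -/
def NE (U : Set X) : Prop :=
  ∀ (Z : Type) [TopologicalSpace Z] [NormalSpace Z] (L : Set Z) (f : Z → X), IsClosed L →
    ContinuousOn f L → MapsTo f L U →
    ∃ (V : Set Z) (g : Z → X), IsOpen V ∧ L ⊆ V ∧ ContinuousOn g V ∧ MapsTo g V U ∧ EqOn g f L

theorem NE.mono {U U' : Set X} (h : NE U) (hU : IsOpen U') (hs : U' ⊆ U) : NE U' := by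
  intro Z _ _ L f hL hf hm
  obtain ⟨V, g, hV, hLV, hg, -, he⟩ := h Z L f hL hf (hm.mono_right hs)
  refine ⟨V ∩ g ⁻¹' U', g, hg.isOpen_inter_preimage hV hU, fun z hz => ⟨hLV hz, ?_⟩,
    hg.mono inter_subset_left, fun z hz => hz.2, he⟩
  show g z ∈ U'
  rw [he hz]; exact hm hz

theorem ne_empty : NE (∅ : Set X) := fun _ _ _ _ f _ _ hm =>
  ⟨∅, f, isOpen_empty, fun _ hz => hm hz, continuousOn_empty _, mapsTo_empty _ _, fun _ _ => rfl⟩

theorem ne_chart {E : Type} [TopologicalSpace E] [TietzeExtension.{0, 0} E]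
    (e : OpenPartialHomeomorph X E) : NE e.source := by
  intro Z _ _ L f hL hf hm
  have hc : ContinuousOn (fun z => e (f z)) L := e.continuousOn.comp hf hm
  obtain ⟨G, hG⟩ := ContinuousMap.exists_restrict_eq hL ⟨L.domRestrict fun z => e (f z), hc.domRestrict⟩
  have hG' : ∀ z ∈ L, G z = e (f z) := fun z hz => congrArg (fun k : C(L, E) => k ⟨z, hz⟩) hG
  refine ⟨G ⁻¹' e.target, fun z => e.symm (G z), e.open_target.preimage G.continuous,
    fun z hz => ?_, e.continuousOn_symm.comp G.continuous.continuousOn fun _ hz => hz,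
    fun z hz => e.map_target hz, fun z hz => ?_⟩
  · show G z ∈ e.target
    rw [hG' z hz]; exact e.map_source (hm hz)
  · show e.symm (G z) = f z
    rw [hG' z hz, e.left_inv (hm hz)]

theorem NE.union {U₁ U₂ : Set X} (h₁ : NE U₁) (h₂ : NE U₂) (o₁ : IsOpen U₁) (o₂ : IsOpen U₂) :
    NE (U₁ ∪ U₂) := by
  classical
  intro Z _ _ L f hL hf hm
  obtain ⟨φ, φ0, φ1, -⟩ := exists_continuous_zero_one_of_isClosed
    (hf.preimage_isClosed_of_isClosed hL o₂.isClosed_compl)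
    (hf.preimage_isClosed_of_isClosed hL o₁.isClosed_compl)
    (disjoint_left.2 fun z a b => (hm a.1).elim b.2 a.2)
  have c1 : IsClosed {z | φ z ≤ 1 / 2} := isClosed_le φ.continuous continuous_const
  have c2 : IsClosed {z | 1 / 2 ≤ φ z} := isClosed_le continuous_const φ.continuous
  have c0 : IsClosed {z | φ z = 1 / 2} := isClosed_eq φ.continuous continuous_const
  have m1 : ∀ z ∈ L, φ z ≤ 1 / 2 → f z ∈ U₁ := fun z hz h => by
    by_contra hn
    have : φ z = 1 := φ1 ⟨hz, hn⟩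
    linarith
  have m2 : ∀ z ∈ L, 1 / 2 ≤ φ z → f z ∈ U₂ := fun z hz h => by
    by_contra hn
    have : φ z = 0 := φ0 ⟨hz, hn⟩
    linarith
  obtain ⟨V₀, g₀, oV₀, s₀, cg₀, mg₀, e₀⟩ := (h₁.mono (o₁.inter o₂) inter_subset_left) Z
    (L ∩ {z | φ z = 1 / 2}) f (hL.inter c0) (hf.mono inter_subset_left)
    fun z hz => ⟨m1 z hz.1 hz.2.le, m2 z hz.1 hz.2.ge⟩
  obtain ⟨W, oW, sW, cW⟩ := normal_exists_closure_subset (hL.inter c0) oV₀ s₀
  set N := closure W ∩ {z | φ z = 1 / 2} with hN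
  have cN : IsClosed N := isClosed_closure.inter c0
  set f' : Z → X := fun z => if z ∈ L then f z else g₀ z with hf'
  have e1 : EqOn f' f L := fun z hz => if_pos hz
  have e2 : EqOn f' g₀ N := fun z hz => by
    by_cases h : z ∈ L
    · rw [e1 h, e₀ ⟨h, hz.2⟩]
    · exact if_neg h
  have cf' : ContinuousOn f' (L ∪ N) :=
    (hf.congr e1).union_of_isClosed ((cg₀.mono fun z hz => cW hz.1).congr e2) hL cN
  obtain ⟨V₁, g₁, oV₁, s₁, cg₁, mg₁, q₁⟩ := h₁ Z (L ∩ {z | φ z ≤ 1 / 2} ∪ N) f'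
    ((hL.inter c1).union cN) (cf'.mono (union_subset_union_left _ inter_subset_left))
    fun z hz => hz.elim (fun h => by rw [e1 h.1]; exact m1 z h.1 h.2)
      fun h => by rw [e2 h]; exact (mg₀ (cW h.1)).1
  obtain ⟨V₂, g₂, oV₂, s₂, cg₂, mg₂, q₂⟩ := h₂ Z (L ∩ {z | 1 / 2 ≤ φ z} ∪ N) f'
    ((hL.inter c2).union cN) (cf'.mono (union_subset_union_left _ inter_subset_left))
    fun z hz => hz.elim (fun h => by rw [e1 h.1]; exact m2 z h.1 h.2)
      fun h => by rw [e2 h]; exact (mg₀ (cW h.1)).2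
  set V := (V₁ ∪ {z | 1 / 2 < φ z}) ∩ (V₂ ∪ {z | φ z < 1 / 2}) ∩ (W ∪ {z | φ z ≠ 1 / 2}) with hV
  have v1 : ∀ z ∈ V, φ z ≤ 1 / 2 → z ∈ V₁ := fun z hz h =>
    hz.1.1.resolve_right fun h' => absurd h (not_le.2 h')
  have v2 : ∀ z ∈ V, 1 / 2 ≤ φ z → z ∈ V₂ := fun z hz h =>
    hz.1.2.resolve_right fun h' => absurd h (not_le.2 h')
  set g : Z → X := fun z => if φ z ≤ 1 / 2 then g₁ z else g₂ z with hg
  have a1 : ∀ z, φ z ≤ 1 / 2 → g z = g₁ z := fun z h => if_pos h
  have a2 : ∀ z ∈ V, 1 / 2 ≤ φ z → g z = g₂ z := fun z hz h => by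
    by_cases h' : φ z ≤ 1 / 2
    · have h0 : φ z = 1 / 2 := le_antisymm h' h
      have hn : z ∈ N := ⟨subset_closure (hz.2.resolve_right fun k => k h0), h0⟩
      rw [a1 z h', q₁ (Or.inr hn), q₂ (Or.inr hn)]
    · exact if_neg h'
  have sV : L ⊆ V := fun z hz => by
    refine ⟨⟨?_, ?_⟩, ?_⟩
    · exact (le_or_gt (φ z) (1 / 2)).imp (fun h => s₁ (Or.inl ⟨hz, h⟩)) id
    · exact (le_or_gt (1 / 2) (φ z)).imp (fun h => s₂ (Or.inl ⟨hz, h⟩)) id
    · exact (em (φ z = 1 / 2)).imp (fun h => sW ⟨hz, h⟩) id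
  refine ⟨V, g, ((oV₁.union (isOpen_lt continuous_const φ.continuous)).inter
    (oV₂.union (isOpen_lt φ.continuous continuous_const))).inter (oW.union c0.isOpen_compl), sV,
    glue c1 c2 (fun z _ => le_total (φ z) (1 / 2)) ?_ ?_, fun z hz => ?_, fun z hz => ?_⟩
  · exact (cg₁.mono fun z hz => v1 z hz.1 hz.2).congr fun z hz => a1 z hz.2
  · exact (cg₂.mono fun z hz => v2 z hz.1 hz.2).congr fun z hz => a2 z hz.1 hz.2
  · rcases le_total (φ z) (1 / 2) with h | h
    · rw [a1 z h]; exact Or.inl (mg₁ (v1 z hz h))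
    · rw [a2 z hz h]; exact Or.inr (mg₂ (v2 z hz h))
  · rcases le_total (φ z) (1 / 2) with h | h
    · rw [a1 z h, q₁ (Or.inl ⟨hz, h⟩), e1 hz]
    · rw [a2 z (sV hz) h, q₂ (Or.inl ⟨hz, h⟩), e1 hz]

/-- every compact set has an open neighbourhood which is a neighbourhood extensor -/
def LNE (X : Type) [TopologicalSpace X] : Prop :=
  ∀ K : Set X, IsCompact K → ∃ U, IsOpen U ∧ K ⊆ U ∧ NE U

theorem lne_of_local (h : ∀ x : X, ∃ U, IsOpen U ∧ x ∈ U ∧ NE U) : LNE X := by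
  intro K hK
  refine hK.induction_on (p := fun K => ∃ U, IsOpen U ∧ K ⊆ U ∧ NE U)
    ⟨∅, isOpen_empty, Subset.rfl, ne_empty⟩ ?_ ?_ ?_
  · rintro s t hst ⟨U, a, b, c⟩; exact ⟨U, a, hst.trans b, c⟩
  · rintro s t ⟨U, a, b, c⟩ ⟨U', a', b', c'⟩
    exact ⟨U ∪ U', a.union a', union_subset_union b b', c.union c' a a'⟩
  · intro x _
    obtain ⟨U, a, b, c⟩ := h x
    exact ⟨U, mem_nhdsWithin_of_mem_nhds (a.mem_nhds b), U, a, Subset.rfl, c⟩

theorem lne_of_charted (E : Type) [TopologicalSpace E] [TietzeExtension.{0, 0} E]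
    [ChartedSpace E X] : LNE X :=
  lne_of_local fun x => ⟨_, (chartAt E x).open_source, mem_chart_source E x, ne_chart _⟩

theorem lne_euc (n : ℕ) [ChartedSpace (EuclideanSpace ℝ (Fin n)) X] : LNE X :=
  haveI : TietzeExtension.{0, 0} (EuclideanSpace ℝ (Fin n)) := TietzeExtension.of_tvs ℝ
  lne_of_charted (EuclideanSpace ℝ (Fin n))

theorem LNE.ext (h : LNE X) {Z : Type} [TopologicalSpace Z] [CompactSpace Z] [T2Space Z]
    {L : Set Z} (hL : IsClosed L) {f : Z → X} (hf : ContinuousOn f L) :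
    ∃ (V : Set Z) (g : Z → X), IsOpen V ∧ L ⊆ V ∧ ContinuousOn g V ∧ EqOn g f L := by
  obtain ⟨U, -, hU, hn⟩ := h _ (hL.isCompact.image_of_continuousOn hf)
  obtain ⟨V, g, a, b, c, -, d⟩ := hn Z L f hL hf fun z hz => hU (mem_image_of_mem f hz)
  exact ⟨V, g, a, b, c, d⟩

/-- Borsuk's homotopy extension theorem, compact domain -/
theorem LNE.hep (h : LNE X) {Z : Type} [TopologicalSpace Z] [CompactSpace Z] [T2Space Z]
    {L : Set Z} (hL : IsClosed L) {f : Z → X} (hf : Continuous f) {H : Z × I → X}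
    (hH : ContinuousOn H (L ×ˢ univ)) (h0 : ∀ z ∈ L, H (z, 0) = f z) :
    ∃ G : C(Z × I, X), (∀ z, G (z, 0) = f z) ∧ ∀ z ∈ L, ∀ t, G (z, t) = H (z, t) := by
  classical
  set Φ : Z × I → X := fun q => if q.1 ∈ L then H q else f q.1 with hΦ
  have e1 : EqOn Φ H (L ×ˢ univ) := fun q hq => if_pos hq.1
  have e2 : EqOn Φ (fun q => f q.1) (univ ×ˢ {0}) := fun q hq => by
    by_cases k : q.1 ∈ L
    · have h2 : q.2 = 0 := hq.2
      show Φ q = f q.1
      rw [e1 ⟨k, trivial⟩, ← h0 _ k, ← h2]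
    · exact if_neg k
  have c1 : IsClosed (L ×ˢ (univ : Set I)) := hL.prod isClosed_univ
  have c2 : IsClosed ((univ : Set Z) ×ˢ ({0} : Set I)) := isClosed_univ.prod isClosed_singleton
  obtain ⟨V, g, oV, sV, cg, eg⟩ := h.ext (c1.union c2) ((hH.congr e1).union_of_isClosed
    ((hf.comp continuous_fst).continuousOn.congr e2) c1 c2)
  obtain ⟨W, W', oW, -, sW, sW', hW⟩ := generalized_tube_lemma hL.isCompact isCompact_univ oV
    (subset_union_left.trans sV)
  obtain ⟨φ, φ0, φ1, φm⟩ := exists_continuous_zero_one_of_isClosed oW.isClosed_compl hL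
    (disjoint_left.2 fun z a b => a (sW b))
  set ψ : Z → I := fun z => ⟨φ z, φm z⟩ with hψ
  have cψ : Continuous ψ := φ.continuous.subtype_mk _
  have hm : ∀ q : Z × I, (q.1, ψ q.1 * q.2) ∈ V := fun q => by
    by_cases k : q.1 ∈ W
    · exact hW ⟨k, sW' trivial⟩
    · have : ψ q.1 = 0 := Subtype.ext (φ0 k)
      rw [this, zero_mul]
      exact sV (Or.inr ⟨trivial, rfl⟩)
  have cm : Continuous fun q : Z × I => (q.1, ψ q.1 * q.2) := by
    refine continuous_fst.prodMk (Continuous.subtype_mk ?_ _)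
    fun_prop
  refine ⟨⟨fun q => g (q.1, ψ q.1 * q.2), cg.comp_continuous cm hm⟩, fun z => ?_, fun z hz t => ?_⟩
  · show g (z, ψ z * 0) = f z
    have k : (z, (0 : I)) ∈ (univ : Set Z) ×ˢ ({0} : Set I) := ⟨trivial, rfl⟩
    rw [mul_zero, eg (Or.inr k), e2 k]
  · have : ψ z = 1 := Subtype.ext (φ1 hz)
    show g (z, ψ z * t) = H (z, t)
    rw [this, one_mul, eg (Or.inl ⟨hz, trivial⟩), e1 ⟨hz, trivial⟩]

/-- Borsuk's theorem for compact subsets `L ⊆ K` of a Hausdorff space -/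
theorem LNE.hep' (h : LNE X) {Z : Type} [TopologicalSpace Z] [T2Space Z] {K L : Set Z}
    (hK : IsCompact K) (hL : IsClosed L) {f : Z → X} (hf : ContinuousOn f K) {H : Z × I → X}
    (hH : ContinuousOn H ((K ∩ L) ×ˢ univ)) (h0 : ∀ z ∈ K ∩ L, H (z, 0) = f z) :
    ∃ G : Z × I → X, ContinuousOn G (K ×ˢ univ) ∧ (∀ z ∈ K, G (z, 0) = f z) ∧
      ∀ z ∈ K ∩ L, ∀ t, G (z, t) = H (z, t) := by
  classical
  have : CompactSpace K := isCompact_iff_compactSpace.1 hK
  obtain ⟨G, a, b⟩ := h.hep (Z := K) (L := Subtype.val ⁻¹' L) (hL.preimage continuous_subtype_val)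
    hf.domRestrict (H := fun q => H (q.1.1, q.2))
    (hH.comp (by fun_prop) fun q hq => ⟨⟨q.1.2, hq.1⟩, trivial⟩) fun z hz => h0 z ⟨z.2, hz⟩
  refine ⟨fun q => if k : q.1 ∈ K then G (⟨q.1, k⟩, q.2) else f q.1, ?_, fun z hz => ?_,
    fun z hz t => ?_⟩
  · rw [continuousOn_iff_continuous_domRestrict]
    have : Continuous fun q : ↥(K ×ˢ (univ : Set I)) => G (⟨q.1.1, q.2.1⟩, q.1.2) := by fun_prop
    exact this.congr fun q => by simp only [domRestrict_apply, dif_pos q.2.1]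
  · exact (dif_pos hz).trans (a _)
  · exact (dif_pos hz.1).trans (b _ hz.2 t)

/-- the map `f` is null-homotopic on `K` -/
def NulM {Z : Type} [TopologicalSpace Z] (f : Z → X) (K : Set Z) : Prop :=
  ∃ (H : Z × I → X) (y : X), ContinuousOn H (K ×ˢ univ) ∧ (∀ z ∈ K, H (z, 0) = f z) ∧
    ∀ z ∈ K, H (z, 1) = y

/-- the set `K` is null-homotopic in `X` -/
abbrev Nul (K : Set X) : Prop := NulM id K

/-- all compact sets are null-homotopic -/
def Null (X : Type) [TopologicalSpace X] : Prop := ∀ K : Set X, IsCompact K → Nul K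

theorem NulM.mono {Z : Type} [TopologicalSpace Z] {f : Z → X} {K K' : Set Z} (h : NulM f K)
    (hs : K' ⊆ K) : NulM f K' :=
  let ⟨H, y, a, b, c⟩ := h
  ⟨H, y, a.mono (prod_mono hs Subset.rfl), fun z hz => b z (hs hz), fun z hz => c z (hs hz)⟩

theorem NulM.comp {Z Z' : Type} [TopologicalSpace Z] [TopologicalSpace Z'] {f : Z → X}
    {K : Set Z} (h : NulM f K) {g : Z' → Z} {L : Set Z'} (hg : ContinuousOn g L)
    (hm : MapsTo g L K) : NulM (fun z => f (g z)) L :=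
  let ⟨H, y, a, b, c⟩ := h
  ⟨fun q => H (g q.1, q.2), y, a.comp ((hg.comp continuousOn_fst fun _ hq => hq.1).prodMk
    continuousOn_snd) fun _ hq => ⟨hm hq.1, trivial⟩, fun _ hz => b _ (hm hz),
    fun _ hz => c _ (hm hz)⟩

/-- absolute extensor for compact pairs -/
theorem LNE.ae (h : LNE X) (hn : Null X) {Z : Type} [TopologicalSpace Z] [T2Space Z]
    {K L : Set Z} (hK : IsCompact K) (hL : IsClosed L) {f : Z → X} (hf : ContinuousOn f (K ∩ L)) :
    ∃ g : Z → X, ContinuousOn g K ∧ EqOn g f (K ∩ L) := by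
  obtain ⟨H, y, a, b, c⟩ := (hn _ ((hK.inter_right hL).image_of_continuousOn hf)).comp hf
    (mapsTo_image _ _)
  obtain ⟨G, a', -, c'⟩ := h.hep' hK hL (f := fun _ => y) continuousOn_const
    (H := fun q => H (q.1, σ q.2)) (a.comp (by fun_prop) fun q hq => ⟨hq.1, trivial⟩)
    fun z hz => by simpa using c z hz
  refine ⟨fun z => G (z, 1), a'.comp (by fun_prop) fun z hz => ⟨hz, trivial⟩, fun z hz => ?_⟩
  show G (z, 1) = f z
  rw [c' z hz]
  simpa using b z hz

end Crest.Agent.N233.Ae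

end
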