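import Crest.Agent.N233.Ae.Col

/-!
# Row 233 (helper61): the tree of Borromean and Seifert pieces over a free group; transfer of trees
-/

set_option autoImplicit false
open Set Relation

noncomputable section

namespace Crest.Agent.N233.Ae

open Hyp

section
variable {N Ed N' Ed' : Type} {src tgt : Ed → N} {src' tgt' : Ed' → N'} {φ : N → N'} {ψ : Ed → Ed'}

theorem coc_pull (h : Coc src' tgt') (hψ : Function.Injective ψ)
    (he : ∀ e, End src' tgt' (ψ e) (φ (src e)) (φ (tgt e))) : Coc src tgt := by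
  classical
  intro H _ g
  obtain ⟨c, hc⟩ := h H (Function.extend ψ
    (fun e => if φ (src e) = src' (ψ e) then g e else (g e)⁻¹) 1)
  refine ⟨fun n => c (φ n), fun e => ?_⟩
  have k := hc (ψ e)
  rw [hψ.extend_apply] at k
  rcases he e with ⟨a, b⟩ | ⟨a, b⟩
  · rw [if_pos a] at k
    show c (φ _) = c (φ _) * _
    rw [a, b, k]
  · rw [if_neg (a ▸ (src_ne_tgt h _).symm)] at k
    show c (φ _) = c (φ _) * _
    rw [a, b, k, inv_mul_cancel_right]

theorem conn_pull (h : ∀ t t', ReflTransGen (fun u v => ∃ e, End src' tgt' e u v) t t')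
    (hφ : Function.Injective φ) (hψ : Function.Surjective ψ)
    (he : ∀ e, End src' tgt' (ψ e) (φ (src e)) (φ (tgt e))) (t t' : N) :
    ReflTransGen (fun u v => ∃ e, End src tgt e u v) t t' := by
  have key : ∀ u', ReflTransGen (fun u v => ∃ e, End src' tgt' e u v) (φ t) u' →
      ∃ u, φ u = u' ∧ ReflTransGen (fun u v => ∃ e, End src tgt e u v) t u := fun u' p => by
    induction p with
    | refl => exact ⟨t, rfl, .refl⟩
    | tail _ k ih =>
      obtain ⟨u, rfl, p⟩ := ih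
      obtain ⟨e', k⟩ := k
      obtain ⟨e, rfl⟩ := hψ e'
      rcases k with ⟨a, b⟩ | ⟨a, b⟩ <;> rcases he e with ⟨c, d⟩ | ⟨c, d⟩
      · exact ⟨tgt e, d.trans b.symm, p.tail ⟨e, Or.inl ⟨hφ (a.trans c.symm), rfl⟩⟩⟩
      · exact ⟨src e, c.trans b.symm, p.tail ⟨e, Or.inr ⟨hφ (a.trans d.symm), rfl⟩⟩⟩
      · exact ⟨src e, c.trans b.symm, p.tail ⟨e, Or.inr ⟨hφ (a.trans d.symm), rfl⟩⟩⟩
      · exact ⟨tgt e, d.trans b.symm, p.tail ⟨e, Or.inl ⟨hφ (a.trans c.symm), rfl⟩⟩⟩
  obtain ⟨u, a, p⟩ := key _ (h (φ t) (φ t'))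
  exact hφ a ▸ p

end

variable {ι : Type}

/-- `(v, i, false)` joins `B v` to `S v i`, `(v, i, true)` joins `S v i` to `S (v * x i) i` -/
def src3 : FreeGroup ι × ι × Bool → FreeGroup ι × Option ι
  | (v, _, false) => (v, none)
  | (v, i, true) => (v, some i)

/-- the other end -/
def tgt3 : FreeGroup ι × ι × Bool → FreeGroup ι × Option ι
  | (v, i, false) => (v, some i)
  | (v, i, true) => (v * FreeGroup.of i, some i)

theorem coc3 : Coc (src3 (ι := ι)) tgt3 := by
  intro H _ g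
  obtain ⟨c, hc⟩ := coc_free ι H fun e =>
    g (e.1, e.2, false) * g (e.1, e.2, true) * (g (e.1 * FreeGroup.of e.2, e.2, false))⁻¹
  refine ⟨fun n => n.2.elim (c n.1) fun i => c n.1 * g (n.1, i, false), ?_⟩
  rintro ⟨v, i, _ | _⟩
  · rfl
  · have := hc (v, i)
    simp only [src3, tgt3, Option.elim] at this ⊢
    rw [this]
    group

theorem conn3 (t t' : FreeGroup ι × Option ι) :
    ReflTransGen (fun u v => ∃ e, End src3 tgt3 e u v) t t' := by
  have a : ∀ t : FreeGroup ι × Option ι,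
      ReflTransGen (fun u v => ∃ e, End src3 tgt3 e u v) t (t.1, none) ∧
      ReflTransGen (fun u v => ∃ e, End src3 tgt3 e u v) (t.1, none) t := by
    rintro ⟨v, _ | i⟩
    · exact ⟨.refl, .refl⟩
    · exact ⟨.single ⟨(v, i, false), Or.inr ⟨rfl, rfl⟩⟩, .single ⟨(v, i, false), Or.inl ⟨rfl, rfl⟩⟩⟩
  refine ((a t).1.trans ?_).trans (a t').2
  have p := conn_free ι t.1 t'.1
  generalize t'.1 = w at p
  induction p with
  | refl => exact .refl
  | tail _ k ih =>
    obtain ⟨⟨v, i⟩, ⟨k1, k2⟩ | ⟨k1, k2⟩⟩ := k <;> rw [k1] at ih <;> rw [k2]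
    · exact ((ih.trans (a (v, some i)).2).tail ⟨(v, i, true), Or.inl ⟨rfl, rfl⟩⟩).trans (a _).1
    · exact ((ih.trans (a (_, some i)).2).tail ⟨(v, i, true), Or.inr ⟨rfl, rfl⟩⟩).trans (a _).1

end Crest.Agent.N233.Ae

end
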