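import Crest.Agent.N233.Ae.Ne

/-!
# Row 233 (helper61): null-homotopies modulo a relation

`Q Y A R`: the quotient `A / R` is contractible as seen by maps to `Y`; `Nq Y A R B`: the subset `B`
is null-homotopic in `A / R`.
-/

set_option autoImplicit false
open Set unitInterval Topology Filter

noncomputable section

namespace Crest.Agent.N233.Ae

variable {Z Y : Type} [TopologicalSpace Z] [TopologicalSpace Y]

/-- concatenation of homotopies -/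
def cat (H₁ H₂ : Z × I → Y) (q : Z × I) : Y :=
  if (q.2 : ℝ) ≤ 1 / 2 then H₁ (q.1, projIcc 0 1 zero_le_one (2 * q.2))
  else H₂ (q.1, projIcc 0 1 zero_le_one (2 * q.2 - 1))

omit [TopologicalSpace Z] [TopologicalSpace Y] in
theorem cat_zero (H₁ H₂ : Z × I → Y) (z : Z) : cat H₁ H₂ (z, 0) = H₁ (z, 0) := by
  simp [cat]

omit [TopologicalSpace Z] [TopologicalSpace Y] in
theorem cat_one (H₁ H₂ : Z × I → Y) (z : Z) : cat H₁ H₂ (z, 1) = H₂ (z, 1) := by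
  have : ¬ ((1 : ℝ) ≤ 2⁻¹) := by norm_num
  have h : (2 : ℝ) - 1 = 1 := by norm_num
  simp [cat, this, h]

omit [TopologicalSpace Z] [TopologicalSpace Y] in
theorem cat_ind {H₁ H₂ : Z × I → Y} {z z' : Z} {P : Y → Y → Prop}
    (h₁ : ∀ t, P (H₁ (z, t)) (H₁ (z', t))) (h₂ : ∀ t, P (H₂ (z, t)) (H₂ (z', t))) (t : I) :
    P (cat H₁ H₂ (z, t)) (cat H₁ H₂ (z', t)) := by
  unfold cat
  split_ifs
  exacts [h₁ _, h₂ _]

theorem cat_cont {H₁ H₂ : Z × I → Y} {A : Set Z} (c₁ : ContinuousOn H₁ (A ×ˢ univ))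
    (c₂ : ContinuousOn H₂ (A ×ˢ univ)) (h : ∀ z ∈ A, H₁ (z, 1) = H₂ (z, 0)) :
    ContinuousOn (cat H₁ H₂) (A ×ˢ univ) := by
  have p : Continuous (projIcc (0 : ℝ) 1 zero_le_one) := continuous_projIcc
  refine glue (A := {q | (q.2 : ℝ) ≤ 1 / 2}) (B := {q | 1 / 2 ≤ (q.2 : ℝ)})
    (isClosed_le (by fun_prop) continuous_const) (isClosed_le continuous_const (by fun_prop))
    (fun q _ => le_total (q.2 : ℝ) (1 / 2)) ?_ ?_
  · exact (c₁.comp (f := fun q : Z × I => (q.1, projIcc 0 1 zero_le_one (2 * (q.2 : ℝ))))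
      (by fun_prop) fun q hq => ⟨hq.1.1, trivial⟩).congr fun q hq => if_pos hq.2
  · refine (c₂.comp (f := fun q : Z × I => (q.1, projIcc 0 1 zero_le_one (2 * (q.2 : ℝ) - 1)))
      (by fun_prop) fun q hq => ⟨hq.1.1, trivial⟩).congr fun q hq => ?_
    by_cases k : (q.2 : ℝ) ≤ 1 / 2
    · have e : (q.2 : ℝ) = 1 / 2 := le_antisymm k hq.2
      have e1 : projIcc (0 : ℝ) 1 zero_le_one (2 * (1 / 2)) = 1 := by norm_num
      have e2 : projIcc (0 : ℝ) 1 zero_le_one (2 * (1 / 2) - 1) = 0 := by norm_num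
      simp only [cat, if_pos k, Function.comp, e, e1, e2, h _ hq.1.1, le_refl, if_true]
    · exact if_neg k

theorem NulM.of_htpy {f : Z → Y} {K : Set Z} {G : Z × I → Y} (c : ContinuousOn G (K ×ˢ univ))
    (h0 : ∀ z ∈ K, G (z, 0) = f z) (h : NulM (fun z => G (z, 1)) K) : NulM f K :=
  let ⟨H, y, a, b, d⟩ := h
  ⟨cat G H, y, cat_cont c a fun z hz => (b z hz).symm, fun z hz => (cat_zero ..).trans (h0 z hz),
    fun z hz => (cat_one ..).trans (d z hz)⟩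

theorem NulM.congr {f g : Z → Y} {K : Set Z} (h : NulM f K) (e : EqOn g f K) : NulM g K :=
  let ⟨H, y, a, b, d⟩ := h
  ⟨H, y, a, fun z hz => (b z hz).trans (e hz).symm, d⟩

theorem NulM.map {Y' : Type} [TopologicalSpace Y'] {f : Z → Y} {K : Set Z} (h : NulM f K)
    {φ : Y → Y'} (c : Continuous φ) : NulM (fun z => φ (f z)) K :=
  let ⟨H, y, a, b, d⟩ := h
  ⟨fun q => φ (H q), φ y, c.comp_continuousOn a, fun z hz => congrArg φ (b z hz),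
    fun z hz => congrArg φ (d z hz)⟩

/-- a set which deforms into a null-homotopic set is null-homotopic -/
theorem Nul.of_deform {K B : Set Y} (h : Nul B) {G : Y × I → Y} (c : ContinuousOn G (K ×ˢ univ))
    (h0 : ∀ z ∈ K, G (z, 0) = z) (h1 : ∀ z ∈ K, G (z, 1) ∈ B) : Nul K :=
  NulM.of_htpy c h0 (NulM.comp h (c.comp (by fun_prop) fun _ hz => ⟨hz, trivial⟩) h1)

/-- `g` respects `R` on `A` -/
def Resp (R : Z → Z → Prop) (A : Set Z) (g : Z → Y) : Prop :=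
  ∀ x ∈ A, ∀ x' ∈ A, R x x' → g x = g x'

/-- lying in a common member of the family `D i`, `i ∈ J` -/
def Rel {ι : Type} (D : ι → Set Z) (J : Set ι) (x x' : Z) : Prop := ∃ i ∈ J, x ∈ D i ∧ x' ∈ D i

variable (Y) in
/-- `A / R` is contractible -/
def Q (A : Set Z) (R : Z → Z → Prop) : Prop :=
  ∀ g : Z → Y, ContinuousOn g A → Resp R A g → ∃ (H : Z × I → Y) (y : Y),
    ContinuousOn H (A ×ˢ univ) ∧ (∀ z ∈ A, H (z, 0) = g z) ∧ (∀ z ∈ A, H (z, 1) = y) ∧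
      ∀ t, Resp R A fun z => H (z, t)

variable (Y) in
/-- `B` is null-homotopic in `A / R` -/
def Nq (A : Set Z) (R : Z → Z → Prop) (B : Set Z) : Prop :=
  ∀ g : Z → Y, ContinuousOn g A → Resp R A g → NulM g B

variable {A B C : Set Z} {R : Z → Z → Prop}

theorem Q.nq (h : Q Y A R) : Nq Y A R A := fun g c r =>
  let ⟨H, y, a, b, d, _⟩ := h g c r
  ⟨H, y, a, b, d⟩

theorem Nq.mono {A' B' : Set Z} {R' : Z → Z → Prop} (h : Nq Y A R B) (hA : A ⊆ A') (hB : B' ⊆ B)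
    (hR : ∀ x ∈ A, ∀ x' ∈ A, R x x' → R' x x') : Nq Y A' R' B' := fun g c r =>
  (h g (c.mono hA) fun x a x' b k => r x (hA a) x' (hA b) (hR x a x' b k)).mono hB

theorem Q.congr {R' : Z → Z → Prop} (h : Q Y A R) (e : ∀ x ∈ A, ∀ x' ∈ A, R x x' ↔ R' x x') :
    Q Y A R' := fun g c r =>
  let ⟨H, y, a, b, d, k⟩ := h g c fun x p x' q s => r x p x' q ((e x p x' q).1 s)
  ⟨H, y, a, b, d, fun t x p x' q s => k t x p x' q ((e x p x' q).2 s)⟩

theorem q_of_rel {x₀ : Z} (h₀ : x₀ ∈ A) (h : ∀ x ∈ A, x = x₀ ∨ R x x₀) : Q Y A R := fun g c r =>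
  ⟨fun q => g q.1, g x₀, c.comp continuousOn_fst fun _ k => k.1, fun _ _ => rfl,
    fun z hz => (h z hz).elim (congrArg g) (r z hz x₀ h₀), fun _ => r⟩

theorem nq_of_rel {x₀ : Z} (h₀ : x₀ ∈ A) (hB : B ⊆ A) (h : ∀ x ∈ B, x = x₀ ∨ R x x₀) :
    Nq Y A R B := fun g c r =>
  ⟨fun q => g q.1, g x₀, (c.mono hB).comp continuousOn_fst fun _ k => k.1, fun _ _ => rfl,
    fun z hz => (h z hz).elim (congrArg g) (r z (hB hz) x₀ h₀)⟩

/-- deformation of `A` into `B` respecting `R` -/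
theorem Q.deform (h : Q Y B R) (hB : B ⊆ A) {r : Z × I → Z} (c : ContinuousOn r (A ×ˢ univ))
    (m : ∀ x ∈ A, ∀ t, r (x, t) ∈ A) (h0 : ∀ x ∈ A, r (x, 0) = x ∨ R (r (x, 0)) x)
    (h1 : ∀ x ∈ A, r (x, 1) ∈ B)
    (hr : ∀ x ∈ A, ∀ x' ∈ A, R x x' → ∀ t, r (x, t) = r (x', t) ∨ R (r (x, t)) (r (x', t))) :
    Q Y A R := by
  intro g cg rg
  obtain ⟨H, y, a, b, d, k⟩ := h g (cg.mono hB) fun x p x' q => rg x (hB p) x' (hB q)
  have c1 : ContinuousOn (fun q : Z × I => r (q.1, 1)) (A ×ˢ univ) :=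
    c.comp (by fun_prop) fun _ hq => ⟨hq.1, trivial⟩
  refine ⟨cat (fun q => g (r q)) fun q => H (r (q.1, 1), q.2), y,
    cat_cont (cg.comp c fun q hq => m q.1 hq.1 q.2)
      (a.comp (c1.prodMk continuousOn_snd) fun q hq => ⟨h1 _ hq.1, trivial⟩)
      fun z hz => (b _ (h1 z hz)).symm,
    fun z hz => (cat_zero ..).trans ((h0 z hz).elim (congrArg g) (rg _ (m z hz 0) z hz)),
    fun z hz => (cat_one ..).trans (d _ (h1 z hz)), fun t x p x' q s => ?_⟩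
  refine cat_ind (P := Eq) (fun t => ?_) (fun t => ?_) t
  · exact (hr x p x' q s t).elim (congrArg g) (rg _ (m x p t) _ (m x' q t))
  · exact (hr x p x' q s 1).elim (congrArg fun u => H (u, t)) (k t _ (h1 x p) _ (h1 x' q))

/-- deformation of `B` inside `A` into `C` -/
theorem Nq.deform (h : Nq Y A R C) (hB : B ⊆ A) {r : Z × I → Z} (c : ContinuousOn r (B ×ˢ univ))
    (m : ∀ x ∈ B, ∀ t, r (x, t) ∈ A) (h0 : ∀ x ∈ B, r (x, 0) = x ∨ R (r (x, 0)) x)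
    (h1 : ∀ x ∈ B, r (x, 1) ∈ C) : Nq Y A R B := fun g cg rg =>
  NulM.of_htpy (G := fun q => g (r q)) (cg.comp c fun q hq => m q.1 hq.1 q.2)
    (fun z hz => (h0 z hz).elim (congrArg g) (rg _ (m z hz 0) z (hB hz)))
    ((h g cg rg).comp (c.comp (by fun_prop) fun _ hz => ⟨hz, trivial⟩) h1)

/-- a contractible core with walls attached at single points -/
theorem q_core {ι : Type} {D : ι → Set Z} {J : Set ι} (hJ : J.Finite) {τ : Set Z}
    (cτ : IsClosed τ) (cD : ∀ i ∈ J, IsClosed (D i))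
    (dD : ∀ i ∈ J, ∀ j ∈ J, ∀ x ∈ D i, x ∈ D j → i = j) (b : ι → Z)
    (hb : ∀ i ∈ J, τ ∩ D i = {b i}) {x₀ : Z} (h₀ : x₀ ∈ τ) {c : Z × I → Z}
    (cc : ContinuousOn c (τ ×ˢ univ)) (mc : ∀ x ∈ τ, ∀ t, c (x, t) ∈ τ)
    (c0 : ∀ x ∈ τ, c (x, 0) = x) (c1 : ∀ x ∈ τ, c (x, 1) = x₀) :
    Q Y (τ ∪ ⋃ i ∈ J, D i) (Rel D J) := by
  classical
  have bm : ∀ i ∈ J, b i ∈ τ ∩ D i := fun i hi => by rw [hb i hi]; rfl
  set ρ : Z → Z := fun x => if k : ∃ i ∈ J, x ∈ D i then b k.choose else x with hρ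
  have e1 : ∀ i ∈ J, ∀ x ∈ D i, ρ x = b i := fun i hi x hx => by
    have k : ∃ i ∈ J, x ∈ D i := ⟨i, hi, hx⟩
    simp only [hρ, dif_pos k]
    rw [dD _ k.choose_spec.1 i hi x k.choose_spec.2 hx]
  have e2 : ∀ x ∈ τ, ρ x = x := fun x hx => by
    by_cases k : ∃ i ∈ J, x ∈ D i
    · obtain ⟨i, hi, k⟩ := k
      rw [e1 i hi x k]
      exact (show x ∈ ({b i} : Set Z) from hb i hi ▸ ⟨hx, k⟩).symm
    · exact dif_neg k
  have mρ : ∀ x ∈ τ ∪ ⋃ i ∈ J, D i, ρ x ∈ τ := fun x hx => by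
    rcases hx with hx | hx
    · rw [e2 x hx]; exact hx
    · obtain ⟨i, hi, k⟩ := mem_iUnion₂.1 hx
      rw [e1 i hi x k]; exact (bm i hi).1
  have cρ : ContinuousOn ρ (τ ∪ ⋃ i ∈ J, D i) := by
    refine (continuousOn_id.congr e2).union_of_isClosed ?_ cτ (hJ.isClosed_biUnion cD)
    have := hJ.to_subtype
    rw [biUnion_eq_iUnion]
    exact (locallyFinite_of_finite _).continuousOn_iUnion (fun i => cD i i.2)
      fun i => continuousOn_const.congr (e1 i i.2)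
  refine (q_of_rel (A := {x₀}) rfl fun x hx => Or.inl hx).deform
    (singleton_subset_iff.2 (Or.inl h₀)) (r := fun q => c (ρ q.1, q.2))
    (cc.comp ((cρ.comp continuousOn_fst fun _ k => k.1).prodMk continuousOn_snd)
      fun q hq => ⟨mρ _ hq.1, trivial⟩) (fun x hx t => Or.inl (mc _ (mρ x hx) t))
    (fun x hx => ?_) (fun x hx => c1 _ (mρ x hx)) fun x _ x' _ ⟨i, hi, p, q⟩ t => Or.inl ?_
  · show c (ρ x, 0) = x ∨ Rel D J (c (ρ x, 0)) x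
    rw [c0 _ (mρ x hx)]
    rcases hx with hx | hx
    · exact Or.inl (e2 x hx)
    · obtain ⟨i, hi, k⟩ := mem_iUnion₂.1 hx
      exact Or.inr ⟨i, hi, by rw [e1 i hi x k]; exact (bm i hi).2, k⟩
  · show c (ρ x, t) = c (ρ x', t)
    rw [e1 i hi x p, e1 i hi x' q]

section Tr
variable {Z₀ : Type} [TopologicalSpace Z₀] [T2Space Z] {A₀ B₀ : Set Z₀} {R₀ : Z₀ → Z₀ → Prop}
  {φ : Z₀ → Z}

theorem exists_inv (hA : IsCompact A₀) (c : ContinuousOn φ A₀) (i : InjOn φ A₀) (x₀ : Z₀) :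
    ∃ ψ : Z → Z₀, ContinuousOn ψ (φ '' A₀) ∧ ∀ x ∈ A₀, ψ (φ x) = x := by
  have : Nonempty Z₀ := ⟨x₀⟩
  have : CompactSpace A₀ := isCompact_iff_compactSpace.1 hA
  have he : IsClosedEmbedding (A₀.domRestrict φ) :=
    c.domRestrict.isClosedEmbedding (injOn_iff_injective.1 i)
  refine ⟨Function.invFunOn φ A₀, continuousOn_iff_isClosed.2 fun t ht => ?_,
    fun x hx => i.leftInvOn_invFunOn hx⟩
  refine ⟨A₀.domRestrict φ '' (Subtype.val ⁻¹' t),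
    he.isClosedMap _ (ht.preimage continuous_subtype_val), Subset.antisymm ?_ ?_⟩
  · rintro _ ⟨k, x, hx, rfl⟩
    exact ⟨⟨⟨x, hx⟩, by rwa [mem_preimage, i.leftInvOn_invFunOn hx] at k, rfl⟩, x, hx, rfl⟩
  · rintro _ ⟨⟨x, k, rfl⟩, l⟩
    refine ⟨?_, l⟩
    show Function.invFunOn φ A₀ (φ x) ∈ t
    rw [i.leftInvOn_invFunOn x.2]; exact k

/-- transport from a compact model -/
theorem Q.map (h : Q Y A₀ R₀) (hA : IsCompact A₀) (c : ContinuousOn φ A₀) (i : InjOn φ A₀)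
    (hR : ∀ x ∈ A₀, ∀ x' ∈ A₀, R₀ x x' ↔ R (φ x) (φ x')) (x₀ : Z₀) : Q Y (φ '' A₀) R := by
  intro g cg rg
  obtain ⟨ψ, cψ, e⟩ := exists_inv hA c i x₀
  obtain ⟨H, y, a, b, d, k⟩ := h (fun x => g (φ x)) (cg.comp c (mapsTo_image _ _))
    fun x p x' q s => rg _ (mem_image_of_mem _ p) _ (mem_image_of_mem _ q) ((hR x p x' q).1 s)
  refine ⟨fun q => H (ψ q.1, q.2), y, a.comp ((cψ.comp continuousOn_fst fun _ k => k.1).prodMk
    continuousOn_snd) ?_, ?_, ?_, fun t => ?_⟩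
  · rintro ⟨_, t⟩ ⟨⟨x, hx, rfl⟩, -⟩
    exact ⟨by simpa only [e x hx] using hx, trivial⟩
  · rintro _ ⟨x, hx, rfl⟩; simp only [e x hx, b x hx]
  · rintro _ ⟨x, hx, rfl⟩; simp only [e x hx, d x hx]
  · rintro _ ⟨x, hx, rfl⟩ _ ⟨x', hx', rfl⟩ s
    simp only [e x hx, e x' hx']
    exact k t x hx x' hx' ((hR x hx x' hx').2 s)

theorem Nq.map (h : Nq Y A₀ R₀ B₀) (hA : IsCompact A₀) (hB : B₀ ⊆ A₀) (c : ContinuousOn φ A₀)
    (i : InjOn φ A₀) (hR : ∀ x ∈ A₀, ∀ x' ∈ A₀, R₀ x x' → R (φ x) (φ x')) (x₀ : Z₀) :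
    Nq Y (φ '' A₀) R (φ '' B₀) := by
  intro g cg rg
  obtain ⟨ψ, cψ, e⟩ := exists_inv hA c i x₀
  refine ((h (fun x => g (φ x)) (cg.comp c (mapsTo_image _ _))
    fun x p x' q s => rg _ (mem_image_of_mem _ p) _ (mem_image_of_mem _ q) (hR x p x' q s)).comp
      (cψ.mono (image_mono hB)) ?_).congr ?_
  · rintro _ ⟨x, hx, rfl⟩; rw [e x (hB hx)]; exact hx
  · rintro _ ⟨x, hx, rfl⟩; simp only [e x (hB hx)]

end Tr

variable [T2Space Z]

/-- finitely many disjoint null-homotopic walls can be made points -/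
theorem LNE.kill (h : LNE Y) (hA : IsCompact A) {ι : Type} {D : ι → Set Z} {J : Set ι}
    (hJ : J.Finite) (cD : ∀ i ∈ J, IsClosed (D i))
    (dD : ∀ i ∈ J, ∀ j ∈ J, ∀ x ∈ D i, x ∈ D j → i = j) {f : Z → Y} (c : ContinuousOn f A)
    (hn : ∀ i ∈ J, NulM f (A ∩ D i)) :
    ∃ G : Z × I → Y, ContinuousOn G (A ×ˢ univ) ∧ (∀ z ∈ A, G (z, 0) = f z) ∧
      Resp (Rel D J) A fun z => G (z, 1) := by
  classical
  choose H y a b d using hn
  set Φ : Z × I → Y := fun q =>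
    if k : ∃ i ∈ J, q.1 ∈ D i then H k.choose k.choose_spec.1 q else f q.1 with hΦ
  have e1 : ∀ i (hi : i ∈ J), ∀ q : Z × I, q.1 ∈ D i → Φ q = H i hi q := fun i hi q hq => by
    have k : ∃ i ∈ J, q.1 ∈ D i := ⟨i, hi, hq⟩
    simp only [hΦ, dif_pos k]
    congr 1
    · exact dD _ k.choose_spec.1 i hi _ k.choose_spec.2 hq
  have := hJ.to_subtype
  obtain ⟨G, p, q, r⟩ := h.hep' hA (hJ.isClosed_biUnion cD) c (H := Φ)
    (((locallyFinite_of_finite fun i : J => (A ∩ D i) ×ˢ (univ : Set I)).continuousOn_iUnion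
      (fun i => (hA.isClosed.inter (cD i i.2)).prod isClosed_univ)
      fun i => (a i i.2).congr fun q hq => e1 i i.2 q hq.1.2).mono fun q hq => by
        obtain ⟨i, hi, k⟩ := mem_iUnion₂.1 hq.1.2
        exact mem_iUnion.2 ⟨⟨i, hi⟩, ⟨hq.1.1, k⟩, trivial⟩)
    fun z hz => by
      obtain ⟨i, hi, k⟩ := mem_iUnion₂.1 hz.2
      rw [e1 i hi _ k, b i hi z ⟨hz.1, k⟩]
  refine ⟨G, p, q, fun x hx x' hx' ⟨i, hi, k, k'⟩ => ?_⟩
  show G (x, 1) = G (x', 1)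
  rw [r x ⟨hx, mem_iUnion₂.2 ⟨i, hi, k⟩⟩, r x' ⟨hx', mem_iUnion₂.2 ⟨i, hi, k'⟩⟩, e1 i hi _ k,
    e1 i hi _ k', d i hi x ⟨hx, k⟩, d i hi x' ⟨hx', k'⟩]

/-- the depth step -/
theorem Nq.nul (h : LNE Y) (hA : IsCompact A) (hB : B ⊆ A) {ι : Type} {D : ι → Set Z} {J : Set ι}
    (hq : Nq Y A (Rel D J) B) (hJ : J.Finite) (cD : ∀ i ∈ J, IsClosed (D i))
    (dD : ∀ i ∈ J, ∀ j ∈ J, ∀ x ∈ D i, x ∈ D j → i = j) {f : Z → Y} (c : ContinuousOn f A)
    (hn : ∀ i ∈ J, NulM f (A ∩ D i)) : NulM f B := by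
  obtain ⟨G, a, b, d⟩ := h.kill hA hJ cD dD c hn
  exact NulM.of_htpy (a.mono (prod_mono hB Subset.rfl)) (fun z hz => b z (hB hz))
    (hq _ (a.comp (by fun_prop) fun _ hz => ⟨hz, trivial⟩) d)

/-- gluing along a set which is collapsed on the `A` side -/
theorem Q.glue (h : LNE Y) {RA RB : Z → Z → Prop} (hA : Q Y A RA) (hB : Q Y B RB)
    (cA : IsCompact A) (cB : IsClosed B) {x₀ : Z} (a₀ : x₀ ∈ A) (b₀ : x₀ ∈ B)
    (hAB : ∀ x ∈ A, x ∈ B → RA x x₀) {L : Set Z} (cL : IsClosed L) (dL : Disjoint L B)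
    (hRA : ∀ x ∈ A, ∀ x' ∈ A, RA x x' → (x ∈ B ∧ x' ∈ B) ∨ (x ∈ L ∧ x' ∈ L ∧ R x x'))
    (hRB : ∀ x ∈ B, ∀ x' ∈ B, RB x x' → R x x')
    (hR : ∀ x ∈ A ∪ B, ∀ x' ∈ A ∪ B, R x x' → (x ∈ B ∧ x' ∈ B ∧ RB x x') ∨
      (x ∈ A ∧ x' ∈ A ∧ x ∈ L ∧ x' ∈ L ∧ RA x x')) : Q Y (A ∪ B) R := by
  classical
  intro g cg rg
  obtain ⟨H, y, a, b, d, k⟩ := hB g (cg.mono subset_union_right)
    fun x p x' q s => rg x (Or.inr p) x' (Or.inr q) (hRB x p x' q s)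
  set Φ : Z × I → Y := fun q => if q.1 ∈ B then H q else g q.1 with hΦ
  have e1 : ∀ q : Z × I, q.1 ∈ B → Φ q = H q := fun q hq => if_pos hq
  have e2 : ∀ q : Z × I, q.1 ∈ L → Φ q = g q.1 := fun q hq => if_neg (disjoint_left.1 dL hq)
  have cB' : IsClosed (B ×ˢ (univ : Set I)) := cB.prod isClosed_univ
  have cA' : IsClosed (A ×ˢ (univ : Set I)) := cA.isClosed.prod isClosed_univ
  obtain ⟨G, p, q, r⟩ := h.hep' cA (cB.union cL) (cg.mono subset_union_left) (H := Φ)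
    (Ae.glue cB' (cL.prod isClosed_univ) (fun q hq => hq.1.2.imp (⟨·, trivial⟩) (⟨·, trivial⟩))
      ((a.mono inter_subset_right).congr fun q hq => e1 q hq.2.1)
      ((cg.comp continuousOn_fst fun q hq => Or.inl hq.1.1.1).congr fun q hq => e2 q hq.2.1))
    fun z hz => hz.2.elim (fun k => (e1 _ k).trans (b z k)) (e2 (z, 0))
  have g1 : ∀ x ∈ A, x ∈ B → ∀ t, G (x, t) = H (x, t) := fun x p q t =>
    (r x ⟨p, Or.inl q⟩ t).trans (e1 _ q)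
  have g2 : ∀ x ∈ A, x ∈ L → ∀ t, G (x, t) = g x := fun x p q t =>
    (r x ⟨p, Or.inr q⟩ t).trans (e2 _ q)
  obtain ⟨H', y', a', b', d', k'⟩ := hA (fun z => G (z, 1))
    (p.comp (by fun_prop) fun _ hz => ⟨hz, trivial⟩) fun x u x' v s => by
      show G (x, 1) = G (x', 1)
      rcases hRA x u x' v s with ⟨i, j⟩ | ⟨i, j, l⟩
      · rw [g1 x u i, g1 x' v j, d x i, d x' j]
      · rw [g2 x u i, g2 x' v j, rg x (Or.inl u) x' (Or.inl v) l]
  set G₁ : Z × I → Y := fun q => if q.1 ∈ A then G q else H q with hG₁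
  set G₂ : Z × I → Y := fun q => if q.1 ∈ A then H' q else H' (x₀, q.2) with hG₂
  have u1 : ∀ q : Z × I, q.1 ∈ A → G₁ q = G q := fun q hq => if_pos hq
  have u2 : ∀ q : Z × I, q.1 ∈ B → G₁ q = H q := fun q hq => by
    by_cases i : q.1 ∈ A
    · exact (u1 q i).trans (g1 _ i hq _)
    · exact if_neg i
  have v1 : ∀ q : Z × I, q.1 ∈ A → G₂ q = H' q := fun q hq => if_pos hq
  have v2 : ∀ q : Z × I, q.1 ∈ B → G₂ q = H' (x₀, q.2) := fun q hq => by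
    by_cases i : q.1 ∈ A
    · exact (v1 q i).trans (k' q.2 _ i _ a₀ (hAB _ i hq))
    · exact if_neg i
  have cv : (A ∪ B) ×ˢ (univ : Set I) ⊆ A ×ˢ univ ∪ B ×ˢ univ :=
    fun q hq => hq.1.imp (⟨·, trivial⟩) (⟨·, trivial⟩)
  refine ⟨cat G₁ G₂, y', cat_cont
    (Ae.glue cA' cB' cv ((p.mono inter_subset_right).congr fun q hq => u1 q hq.2.1)
      ((a.mono inter_subset_right).congr fun q hq => u2 q hq.2.1))
    (Ae.glue cA' cB' cv ((a'.mono inter_subset_right).congr fun q hq => v1 q hq.2.1)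
      ((a'.comp (f := fun q : Z × I => (x₀, q.2)) (by fun_prop) fun _ _ => ⟨a₀, trivial⟩).congr
        fun q hq => v2 q hq.2.1)) fun z hz => ?_,
    fun z hz => (cat_zero ..).trans ?_, fun z hz => (cat_one ..).trans ?_, fun t x u x' v s => ?_⟩
  · rcases hz with hz | hz
    · rw [u1 _ hz, v1 _ hz, b' z hz]
    · rw [u2 _ hz, v2 _ hz, b' _ a₀, d z hz, g1 _ a₀ b₀, d _ b₀]
  · exact hz.elim (fun hz => (u1 _ hz).trans (q z hz)) fun hz => (u2 _ hz).trans (b z hz)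
  · exact hz.elim (fun hz => (v1 _ hz).trans (d' z hz)) fun hz => (v2 _ hz).trans (d' _ a₀)
  · rcases hR x u x' v s with ⟨i, j, l⟩ | ⟨i, j, i', j', l⟩
    · refine cat_ind (P := Eq) (fun t => ?_) (fun t => ?_) t
      · rw [u2 _ i, u2 _ j]; exact k t x i x' j l
      · rw [v2 _ i, v2 _ j]
    · refine cat_ind (P := Eq) (fun t => ?_) (fun t => ?_) t
      · rw [u1 _ i, u1 _ j, g2 x i i', g2 x' j j', rg x u x' v s]
      · rw [v1 _ i, v1 _ j]; exact k' t x i x' j l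

end Crest.Agent.N233.Ae

end
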