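import Crest.Agent.N233.Ae.Sg
import Crest.Agent.N233.Ae.Tr
import Crest.Agent.N233.Pc.In0
import Crest.Agent.N233.Pc.QB
import Crest.Agent.N233.Pc.QS2

/-!
# Row 233 (helper61): the cover of the bipartite filling has null-homotopic compact sets
-/

set_option autoImplicit false
open Set Relation

noncomputable section

namespace Crest.Agent.N233.Pc.In

open Ae Hyp

theorem tp_inj3 {f f' : F2} {ε ε' : Bool} (h : f.1 * tp ε = f'.1 * tp ε') : f = f' ∧ ε = ε' := by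
  have k := congrArg (fun v => (χ v).toAdd) h
  simp only [χ.map_mul, toAdd_mul, χ_tp] at k
  obtain ⟨a, ha⟩ := Wu.mem_Gn.1 f.2
  obtain ⟨b, hb⟩ := Wu.mem_Gn.1 f'.2
  obtain rfl : ε = ε' := by
    cases ε <;> cases ε' <;> simp at k ⊢ <;> omega
  exact ⟨Subtype.ext (mul_right_cancel h), rfl⟩

theorem tp_sur3 (v : F3) : ∃ (f : F2) (ε : Bool), f.1 * tp ε = v := by
  by_cases h : v ∈ F2
  · exact ⟨⟨v, h⟩, false, mul_one v⟩
  · refine ⟨⟨v * (tp true)⁻¹, ?_⟩, true, inv_mul_cancel_right _ _⟩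
    rw [Wu.mem_Gn] at h ⊢
    rw [χ.map_mul, χ.map_inv, toAdd_mul, toAdd_inv, χ_tp]
    simp only [if_true]
    omega

/-- nodes of the tree -/
def φ3 (v : F2 × Nd) : F3 × Option (Fin 3) := (vt v.1 v.2, v.2.2)

/-- edges of the tree -/
def ψ3 (e : F2 × Ed) : F3 × Fin 3 × Bool := (e.1.1 * tp e.2.1, e.2.2)

theorem φ3_inj : Function.Injective φ3 := fun v w h =>
  let a := tp_inj3 (congrArg Prod.fst h)
  Prod.ext a.1 (Prod.ext a.2 (congrArg (·.2) h :))

theorem ψ3_inj : Function.Injective ψ3 := fun v w h =>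
  let a := tp_inj3 (congrArg Prod.fst h)
  Prod.ext a.1 (Prod.ext a.2 (congrArg (·.2) h :))

theorem ψ3_sur : Function.Surjective ψ3 := fun ⟨v, k⟩ =>
  let ⟨f, ε, h⟩ := tp_sur3 v
  ⟨(f, ε, k), Prod.ext h rfl⟩

theorem end3 (e : F2 × Ed) :
    End src3 tgt3 (ψ3 e) (φ3 (side g wn true e)) (φ3 (side g wn false e)) := by
  obtain ⟨f, ε, i, _ | _⟩ := e
  · exact Or.inl ⟨Prod.ext (congrArg (· * tp ε) (mul_one f.1)) rfl,
      Prod.ext (congrArg (· * tp ε) (mul_one f.1)) rfl⟩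
  · refine Or.inl ⟨Prod.ext (congrArg (· * tp ε) (mul_one f.1)) rfl, Prod.ext ?_ rfl⟩
    show f.1 * (tp ε * .of i * (tp (nx ε i))⁻¹) * tp (nx ε i) = f.1 * tp ε * .of i
    group

theorem coc : Coc (side g wn true) (side g wn false) := coc_pull coc3 ψ3_inj end3

theorem conn (t t' : F2 × Nd) :
    ReflTransGen (fun u v => ∃ d, End (side g wn true) (side g wn false) d u v) t t' :=
  conn_pull conn3 φ3_inj ψ3_sur end3 t t'

/-- chosen walls -/
def kb : Nd → Fin 3 → Bool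
  | (_, none), k => decide (k ≠ 0)
  | (ε, some i), k => if i = om ε then decide (k = 0) else decide (k ≠ 0) && ty ε i (e3 k)

theorem kb_iff (j : Ed × Bool) : kb (eJ j).1 (eJ j).2 = true ↔
    kb (eJ (j.1, true)).1 (eJ (j.1, true)).2 = j.2 := by
  revert j; decide

variable (H : TM) {Y : Type} [TopologicalSpace Y]

theorem AB_eq (ε : Bool) (a : ℝ) :
    {x | sm (P1 H (ε, none)) x ≤ a} = {x : EB | ht x.1.1 ≤ a} :=
  Set.ext fun x => by rw [mem_ofPred_eq, show sm (P1 H (ε, none)) x = ht x.1.1 from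
    sm_gm gmB tt H.tB H.hB x]; rfl

theorem AS_eq (ε : Bool) (i : Fin 3) (a : ℝ) :
    {x | sm (P1 H (ε, some i)) x ≤ a} = AS 1 (ty ε i) a :=
  Set.ext fun x => by rw [mem_ofPred_eq, show sm (P1 H (ε, some i)) x = ht x.1.2 from
    sm_gm (gmS 1 (ty ε i) (ty_ok ε i)) tt H.tS (H.hS _) x]; rfl

theorem rel_S (ε : Bool) (i : Fin 3) {K : Set (Fin 3)} {K' : Set (JS 1)}
    (h : ∀ k, k ∈ K ↔ e3 k ∈ K') (x x' : ES 1 (ty ε i)) : Rel (DS 1 (ty ε i)) K' x x' ↔
      Rel (wall (P1 H (ε, some i)).toWl) K x x' :=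
  ⟨fun ⟨j, a, b⟩ => by
    obtain ⟨k, rfl⟩ := e3.surjective j
    exact ⟨k, (h k).2 a, b⟩, fun ⟨k, a, b⟩ => ⟨e3 k, (h k).1 a, b⟩⟩

theorem hq (hY : LNE Y) (n : Nd) (a : ℝ) (ha : 0 ≤ a) :
    Q Y {x | sm (P1 H n) x ≤ a} (Rel (wall (P1 H n).toWl) {k | kb n k = true}) := by
  obtain ⟨ε, _ | i⟩ := n
  · rw [AB_eq, show {k | kb (ε, none) k = true} = {1, 2} from Set.ext fun k => by
      simp only [mem_ofPred_eq, mem_insert_iff, mem_singleton_iff]; revert ε k; decide]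
    exact qB ha
  · rw [AS_eq]
    by_cases h : i = om ε
    · have k : ∀ k, kb (ε, some i) k = true ↔ e3 k = .inr true := by revert h ε i; decide
      exact (qS1 (by revert h ε i; decide) ha).congr fun x _ x' _ => rel_S H ε i k x x'
    · have k : ∀ k, kb (ε, some i) k = true ↔ e3 k ≠ .inr true ∧ ty ε i (e3 k) = true := by
        revert h ε i; decide
      exact (qS hY (by revert h ε i; decide) ha).congr fun x _ x' _ => rel_S H ε i k x x'

/-- base points -/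
def x0 (n : Nd) : (P1 H n).E := (P1 H n).toWl.w 0 (alK 0, 0)

theorem kl_all (hY : LNE Y) (d : Ed) :
    Kl Y (PP H).toWl Sigma.fst (fun j => (eJ j).1) (sm (PP H)) d := by
  have N := nodes_bk (P1 H) eJ tt
  set P := Kl Y (PP H).toWl Sigma.fst (fun j => (eJ j).1) (sm (PP H)) with hP
  have q : ∀ n k, (∀ k', kb n k' = true → P (eJ.symm ⟨n, k'⟩).1) → P (eJ.symm ⟨n, k⟩).1 :=
    fun n k h => N.kl_q k {k | kb n k = true} h (hq H hY n) (x0 H n)
  have s1 : ∀ ε, P (ε, 2, true) := fun ε =>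
    N.kl (n := (ε, some 2)) 2 ∅ (fun _ k => k.elim) (fun a ha => by
      rw [AS_eq]
      exact nqS' (j := e3 2) (by revert ε; decide) (by revert ε; decide) ha _) (x0 H _)
  have s2 : ∀ ε, P (ε, 2, false) := fun ε => q (ε, some 2) 0 fun k hk => by
    rw [show (eJ.symm ⟨(ε, some 2), k⟩).1 = (ε, 2, true) by revert hk ε k; decide]
    exact s1 ε
  have s3 : ∀ ε, P (ε, om ε, false) := fun ε => by
    rw [show (ε, om ε, false) = (eJ.symm ⟨(ε, none), 0⟩).1 by revert ε; decide]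
    refine N.kl (n := (ε, none)) 0 {2 - om ε} ?_ (fun a ha => ?_) (x0 H _)
    · rintro _ rfl
      rw [show (eJ.symm ⟨(ε, none), 2 - om ε⟩).1 = (ε, 2, false) by revert ε; decide]
      exact s2 ε
    · rw [AB_eq]
      exact nqB ha (by revert ε; decide)
  have s4 : ∀ ε k, P (eJ.symm ⟨(ε, some (om ε)), k⟩).1 := fun ε k => q _ k fun k' hk => by
    rw [show (eJ.symm ⟨(ε, some (om ε)), k'⟩).1 = (ε, om ε, false) by revert hk ε k'; decide]
    exact s3 ε
  have s5 : ∀ ε i, P (ε, i, true) := fun ε i => by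
    have : i = 2 ∨ ∃ ε' k, (ε, i, true) = (eJ.symm ⟨(ε', some (om ε')), k⟩).1 := by
      revert ε i; decide
    rcases this with rfl | ⟨ε', k, e⟩
    · exact s1 ε
    · rw [e]; exact s4 ε' k
  obtain ⟨ε, i, _ | _⟩ := d
  · by_cases h : i = om ε
    · rw [h]; exact s3 ε
    · refine q (ε, some i) 0 fun k hk => ?_
      obtain ⟨ε', e⟩ : ∃ ε', (eJ.symm ⟨(ε, some i), k⟩).1 = (ε', i, true) := by
        revert hk h ε i k; decide
      rw [e]; exact s5 ε' i
  · exact s5 ε i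

/-- **compact subsets of the cover of the filling are null-homotopic** -/
theorem null : Null ((PP H).toWl.Gl g) :=
  have L : LNE ((PP H).toWl.Gl g) := @lne_euc _ _ 4 (charted (Wl.le_all le_VW))
  (nodes_bk (P1 H) eJ tt).null coc conn (x0 H) (fun n => {k | kb n k = true})
    (fun d => kb (eJ (d, true)).1 (eJ (d, true)).2) kb_iff (hq H L) (kl_all H L)

end Crest.Agent.N233.Pc.In

end
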