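import Crest.Agent.N233.Ae.Asm
import Crest.Agent.N233.Pc.Kit
import Crest.Agent.N233.Pc.Sum

/-!
# Row 233 (helper61): the collapse data of a piece from those of its components
-/

set_option autoImplicit false
open Set unitInterval Topology Filter Relation

noncomputable section

namespace Crest.Agent.N233.Ae

open Hyp Pc

/-- the height on a piece -/
def sm {S J : Type} [Fintype S] {Fc : Set S → Prop} {wl : J → Tor → S} (P : Bk Fc wl) (x : P.E) :
    ℝ := ∑ s, P.p x s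

section
variable {S J : Type} [Fintype S] {Fc : Set S → Prop} {wl : J → Tor → S} (P : Bk Fc wl)

theorem sm_w (hT : TT) (j : J) (v : VW) : sm P (P.toWl.w j v) = ht v.2 := by
  rw [sm, show P.p (P.toWl.w j v) = _ from P.pκ j v, sum_pu, sum_pV hT]

theorem sm_cont : Continuous (sm P) :=
  continuous_finsetSum _ fun s _ => (continuous_apply s).comp P.p.continuous

theorem sm_cpt (a : ℝ) : IsCompact {x | sm P x ≤ a} :=
  (P.cpt (max 0 a)).of_isClosed_subset (isClosed_le (sm_cont P) continuous_const) fun x hx =>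
    (pi_norm_le_iff_of_nonneg (le_max_left _ _)).2 fun s => by
      rw [Real.norm_of_nonneg ((P.p_mem x).1 s)]
      exact ((Finset.single_le_sum (fun t _ => (P.p_mem x).1 t) (Finset.mem_univ s)).trans
        hx).trans (le_max_right _ _)

theorem cp_bk (hT : TT) {Nd : Type} {nd : P.E → Nd} {wn : J → Nd}
    (h : ∀ j v, nd (P.toWl.w j v) = wn j) (cl : ∀ n, IsClosed {x | nd x = n}) :
    Cp P.toWl nd wn (sm P) :=
  ⟨h, sm_w P hT, sm_cont P, cl, sm_cpt P⟩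

theorem sm_relabel {S' : Type} [Fintype S'] (e : S ≃ S') (x : P.E) :
    sm (P.relabel e) x = sm P x := sum_pu e (P.p x)

theorem sm_reindex {J' : Type} (e : J' ≃ J) (x : P.E) : sm (P.reindex e) x = sm P x := rfl

theorem sm_congr {Fc' : Set S → Prop} {wl' : J → Tor → S} (h : ∀ A, Fc' A ↔ Fc A)
    (h' : ∀ j t, wl' j t = wl j t) (x : P.E) : sm (P.congr h h') x = sm P x := rfl

theorem sm_refl (hT : TT) (a b : J → Bool) (x : P.E) : sm (Bk.refl' hT P a b) x = sm P x := rfl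

end

theorem sm_sigma {N : Type} {J S : N → Type} [Fintype N] [∀ n, Fintype (S n)]
    {Fc : ∀ n, Set (S n) → Prop} {wl : ∀ n, J n → Tor → S n} (P : ∀ n, Bk (Fc n) (wl n)) (n : N)
    (x : (P n).E) : sm (Bk.sigma P) ⟨n, x⟩ = sm (P n) x := sum_pu (Sigma.mk n) ((P n).p x)

theorem sm_gm {S G J : Type} [Fintype S] [NormedAddCommGroup G] [NormedSpace ℝ G]
    {Fc : Set S → Prop} {pos : S → G} {C : Set G} {τ : J → R2 × R2 → G} (g : Gm C τ) (hT : TT)
    (T : Tri Fc pos C) {wl : J → Tor → S} (h) (x : g.E) :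
    sm (g.bk hT T (wl := wl) h) x = g.r x := T.sum_smul (g.r_nonneg x) (g.π_mem x)

theorem isClosed_fst {N : Type} {E : N → Type} [∀ n, TopologicalSpace (E n)] (n : N) :
    IsClosed {x : Σ n, E n | x.1 = n} :=
  isClosed_sigma_iff.2 fun m => by
    by_cases h : m = n <;> simp [h]

/-- the components of `W`: `ι n` identifies `En n` with the component `n` -/
structure Nodes {Ed Nd : Type} (W : Wl (Ed × Bool)) {J En : Nd → Type}
    [∀ n, TopologicalSpace (En n)] (e : Ed × Bool ≃ Σ n, J n) (ι : ∀ n, En n → W.E)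
    (rn : ∀ n, En n → ℝ) (D : ∀ n, J n → Set (En n)) (nd : W.E → Nd) (r : W.E → ℝ) : Prop where
  cp : Cp W nd (fun j => (e j).1) r
  emb : ∀ n, IsClosedEmbedding (ι n)
  nd_ι : ∀ n x, nd (ι n x) = n
  sur : ∀ x, ∃ y, ι (nd x) y = x
  r_ι : ∀ n x, r (ι n x) = rn n x
  mem : ∀ n i x, ι n x ∈ wall W (e.symm ⟨n, i⟩) ↔ x ∈ D n i

namespace Nodes
variable {Ed Nd : Type} {W : Wl (Ed × Bool)} {J En : Nd → Type} [∀ n, TopologicalSpace (En n)]
  {e : Ed × Bool ≃ Σ n, J n} {ι : ∀ n, En n → W.E} {rn : ∀ n, En n → ℝ}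
  {D : ∀ n, J n → Set (En n)} {nd : W.E → Nd} {r : W.E → ℝ} (H : Nodes W e ι rn D nd r)
  {Y : Type} [TopologicalSpace Y]
include H

theorem tr_eq (n : Nd) (a : ℝ) : tr nd r n a = ι n '' {x | rn n x ≤ a} := by
  ext x
  constructor
  · rintro ⟨rfl, k⟩
    obtain ⟨y, hy⟩ := H.sur x
    exact ⟨y, by rwa [mem_setOf_eq, ← H.r_ι, hy], hy⟩
  · rintro ⟨y, k, rfl⟩
    exact ⟨H.nd_ι n y, (H.r_ι n y).trans_le k⟩

theorem cpt (n : Nd) (a : ℝ) : IsCompact {x | rn n x ≤ a} := by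
  have := (H.emb n).isCompact_preimage (H.cp.cpt a)
  simpa only [preimage_setOf_eq, H.r_ι] using this

theorem rel {n : Nd} (K : Set (J n)) (x x' : En n) : Rel (D n) K x x' ↔
    Rel (wall W) ((fun i => e.symm ⟨n, i⟩) '' K) (ι n x) (ι n x') :=
  ⟨fun ⟨i, a, b, c⟩ => ⟨_, mem_image_of_mem _ a, (H.mem ..).2 b, (H.mem ..).2 c⟩,
    by rintro ⟨_, ⟨i, a, rfl⟩, b, c⟩; exact ⟨i, a, (H.mem ..).1 b, (H.mem ..).1 c⟩⟩

theorem q {n : Nd} {a : ℝ} {K : Set (J n)} (h : Q Y {x | rn n x ≤ a} (Rel (D n) K)) (x₀ : En n) :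
    Q Y (tr nd r n a) (Rel (wall W) ((fun i => e.symm ⟨n, i⟩) '' K)) := by
  rw [H.tr_eq]
  exact h.map (H.cpt n a) (H.emb n).continuous.continuousOn (H.emb n).injective.injOn
    (fun x _ x' _ => H.rel K x x') x₀

/-- a wall which is null-homotopic in its component modulo dead walls dies -/
theorem kl {n : Nd} (i : J n) (K : Set (J n))
    (hK : ∀ i' ∈ K, Kl Y W nd (fun j => (e j).1) r (e.symm ⟨n, i'⟩).1)
    (h : ∀ a, 0 ≤ a → Nq Y {x | rn n x ≤ a} (Rel (D n) K) ({x | rn n x ≤ a} ∩ D n i))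
    (x₀ : En n) : Kl Y W nd (fun j => (e j).1) r (e.symm ⟨n, i⟩).1 := by
  refine .mk _ ((fun i => e.symm ⟨n, i⟩) '' K) (by rintro _ ⟨i', k, rfl⟩; exact hK i' k)
    fun a ha => ?_
  simp only [Equiv.apply_symm_apply]
  rw [H.tr_eq]
  refine ((h a ha).map (H.cpt n a) inter_subset_left (H.emb n).continuous.continuousOn
    (H.emb n).injective.injOn (fun x _ x' _ => (H.rel K x x').1) x₀).mono Subset.rfl ?_
    fun _ _ _ _ k => k
  rintro _ ⟨⟨x, hx, rfl⟩, k⟩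
  exact ⟨x, ⟨hx, (H.mem ..).1 k⟩, rfl⟩

theorem kl_q {n : Nd} (i : J n) (K : Set (J n))
    (hK : ∀ i' ∈ K, Kl Y W nd (fun j => (e j).1) r (e.symm ⟨n, i'⟩).1)
    (h : ∀ a, 0 ≤ a → Q Y {x | rn n x ≤ a} (Rel (D n) K)) (x₀ : En n) :
    Kl Y W nd (fun j => (e j).1) r (e.symm ⟨n, i⟩).1 :=
  H.kl i K hK (fun a ha => (h a ha).nq.mono Subset.rfl inter_subset_left fun _ _ _ _ k => k) x₀

/-- `K n` = the chosen walls of the component `n`; every edge is chosen exactly once -/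
theorem null {F : Type} [Group F] {g : Ed × Bool → F} [Finite Ed] [Finite Nd] [Nonempty Nd]
    (hc : Coc (side g (fun j => (e j).1) true) (side g (fun j => (e j).1) false))
    (hn : ∀ t t', ReflTransGen (fun u v => ∃ d, End (side g (fun j => (e j).1) true)
      (side g (fun j => (e j).1) false) d u v) t t')
    (x₀ : ∀ n, En n) (K : ∀ n, Set (J n)) (cb : Ed → Bool)
    (hK : ∀ j, (e j).2 ∈ K (e j).1 ↔ cb j.1 = j.2)
    (hq : ∀ n a, 0 ≤ a → Q (W.Gl g) {x | rn n x ≤ a} (Rel (D n) (K n)))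
    (hk : ∀ d, Kl (W.Gl g) W nd (fun j => (e j).1) r d) : Null (W.Gl g) := by
  refine H.cp.null hc hn cb (ι _ (x₀ (Classical.arbitrary Nd))) (fun n a ha => ?_) hk
  have : {j | (e j).1 = n ∧ cb j.1 = j.2} = (fun i => e.symm ⟨n, i⟩) '' K n := by
    ext j
    constructor
    · rintro ⟨rfl, k⟩
      exact ⟨_, (hK j).2 k, e.symm_apply_apply j⟩
    · rintro ⟨i, k, rfl⟩
      refine ⟨by simp, (hK _).1 ?_⟩
      rw [Equiv.apply_symm_apply]
      exact k
  rw [this]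
  exact H.q (hq n a ha) (x₀ n)

end Nodes

/-- the components of a sum -/
theorem nodes_sigma {Ed Nd : Type} {J : Nd → Type} (Ws : ∀ n, Wl (J n))
    (e : Ed × Bool ≃ Σ n, J n) {rn : ∀ n, (Ws n).E → ℝ} {r : (Σ n, (Ws n).E) → ℝ}
    (hr : ∀ n x, r ⟨n, x⟩ = rn n x)
    (C : Cp ((Wl.sigma Ws).reindex e) Sigma.fst (fun j => (e j).1) r) :
    Nodes ((Wl.sigma Ws).reindex e) e (fun n x => ⟨n, x⟩) rn (fun n => wall (Ws n)) Sigma.fst r where
  cp := C
  emb n := @IsClosedEmbedding.sigmaMk Nd (fun n => (Ws n).E) _ n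
  nd_ι _ _ := rfl
  sur x := ⟨x.2, rfl⟩
  r_ι := hr
  mem n i x := by
    show tσ Ws (e (e.symm ⟨n, i⟩)) ⟨n, x⟩ = 0 ↔ (Ws n).t i x = 0
    rw [Equiv.apply_symm_apply, tσ_same]

/-- the components of a sum of pieces -/
theorem nodes_bk {Ed Nd : Type} {J S : Nd → Type} [Fintype Nd] [∀ n, Fintype (S n)]
    {Fc : ∀ n, Set (S n) → Prop} {wl : ∀ n, J n → Tor → S n} (P : ∀ n, Bk (Fc n) (wl n))
    (e : Ed × Bool ≃ Σ n, J n) (hT : TT) :
    Nodes ((Bk.sigma P).reindex e).toWl e (fun n x => ⟨n, x⟩) (fun n => sm (P n))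
      (fun n => wall (P n).toWl) Sigma.fst (sm ((Bk.sigma P).reindex e)) :=
  nodes_sigma (fun n => (P n).toWl) e (sm_sigma P)
    (cp_bk ((Bk.sigma P).reindex e) hT (fun _ _ => rfl) isClosed_fst)

end Crest.Agent.N233.Ae

end
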